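import Vale.Agent.Lib.P091.FejA

/-! # P091 module FejB: Fejer smoothing of the measure -/

open Finset

namespace P091

/-- the Fejer means of the measure: coefficients -/
noncomputable def fj (m q : ℕ) (g : ℕ → ℕ → ℕ) (M : ℕ) (k : ℤ) : ℂ :=
  if |k| ≤ M then ((1 - |(k : ℝ)| / M : ℝ) : ℂ) * cc m q g k else 0

theorem fj_zero (m q : ℕ) (g : ℕ → ℕ → ℕ) (M : ℕ) (hM : 1 ≤ M) : fj m q g M 0 = 1 := by
  have h1 : cc m q g 0 = 1 := by
    unfold cc
    simp
  unfold fj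
  rw [h1]
  simp

/-- `PS (fj) M x = 2^-m ∑_j Φ(x - 2π y_j)`, `0 ≤ Φ ≤ M` the Fejer kernel. -/
theorem fj_real (m q : ℕ) (g : ℕ → ℕ → ℕ) (M : ℕ) (hM : 1 ≤ M) (x : ℝ) :
    (PS (fj m q g M) M x).im = 0 ∧ 0 ≤ (PS (fj m q g M) M x).re ∧
      (PS (fj m q g M) M x).re ≤ M := by
  have hMR : (0 : ℝ) < M := by exact_mod_cast hM
  set F : ℕ → ℝ := fun j => (1 / M : ℝ) *
    ‖∑ a ∈ range M, Complex.exp (a * ((x - 2 * Real.pi * yy m q g j : ℝ) : ℂ) * Complex.I)‖ ^ 2
    with hF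
  have key : PS (fj m q g M) M x = (((1 / 2 : ℝ) ^ m * ∑ j ∈ range (2 ^ m), F j : ℝ) : ℂ) := by
    unfold PS
    have e1 : ∀ k ∈ Icc (-(M : ℤ)) M, fj m q g M k * Complex.exp (k * x * Complex.I) =
        (1 / 2 : ℂ) ^ m * ∑ j ∈ range (2 ^ m), ((1 - |(k : ℝ)| / M : ℝ) : ℂ) *
          Complex.exp (k * ((x - 2 * Real.pi * yy m q g j : ℝ) : ℂ) * Complex.I) := by
      intro k hk
      have hk' : |k| ≤ (M : ℤ) := by
        rw [Finset.mem_Icc] at hk
        exact abs_le.mpr hk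
      unfold fj cc
      rw [if_pos hk']
      rw [Finset.mul_sum, Finset.mul_sum, Finset.mul_sum, Finset.sum_mul]
      apply Finset.sum_congr rfl
      intro j _
      have e2 : Complex.exp (k * ((x - 2 * Real.pi * yy m q g j : ℝ) : ℂ) * Complex.I) =
          Complex.exp (-(k * (2 * Real.pi * yy m q g j : ℝ) * Complex.I)) *
            Complex.exp (k * x * Complex.I) := by
        rw [← Complex.exp_add]
        congr 1
        push_cast
        ring
      rw [e2]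
      ring
    rw [Finset.sum_congr rfl e1, ← Finset.mul_sum, Finset.sum_comm]
    push_cast
    congr 1
    apply Finset.sum_congr rfl
    intro j _
    have h := fejer M hM (x - 2 * Real.pi * yy m q g j)
    rw [hF]
    push_cast at h ⊢
    exact h
  have hF0 : ∀ j, 0 ≤ F j := by
    intro j
    rw [hF]
    positivity
  have hF1 : ∀ j, F j ≤ M := by
    intro j
    rw [hF]
    have h1 : ‖∑ a ∈ range M, Complex.exp (a * ((x - 2 * Real.pi * yy m q g j : ℝ) : ℂ) *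
        Complex.I)‖ ≤ M := by
      refine (norm_sum_le _ _).trans ?_
      have h2 : ∀ a ∈ range M, ‖Complex.exp (a * ((x - 2 * Real.pi * yy m q g j : ℝ) : ℂ) *
        Complex.I)‖ ≤ 1 := by
        intro a _
        have h3 : ((a : ℂ) * ((x - 2 * Real.pi * yy m q g j : ℝ) : ℂ) * Complex.I) =
            (((a : ℝ) * (x - 2 * Real.pi * yy m q g j) : ℝ) : ℂ) * Complex.I := by
          push_cast
          ring
        rw [h3, Complex.norm_exp_ofReal_mul_I]
      refine (Finset.sum_le_sum h2).trans ?_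
      simp
    have h0 : 0 ≤ ‖∑ a ∈ range M, Complex.exp (a * ((x - 2 * Real.pi * yy m q g j : ℝ) : ℂ) *
        Complex.I)‖ := norm_nonneg _
    have h4 : ‖∑ a ∈ range M, Complex.exp (a * ((x - 2 * Real.pi * yy m q g j : ℝ) : ℂ) *
        Complex.I)‖ ^ 2 ≤ (M : ℝ) ^ 2 := by
      exact pow_le_pow_left₀ h0 h1 2
    show (1 / M : ℝ) * _ ≤ M
    rw [div_mul_eq_mul_div, one_mul, div_le_iff₀ hMR]
    nlinarith [h4]
  have hp : (0 : ℝ) < (1 / 2 : ℝ) ^ m := by positivity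
  have hsum : ∑ j ∈ range (2 ^ m), F j ≤ 2 ^ m * M := by
    refine (Finset.sum_le_sum (fun j _ => hF1 j)).trans ?_
    simp
  rw [key]
  refine ⟨Complex.ofReal_im _, ?_, ?_⟩
  · rw [Complex.ofReal_re]
    exact mul_nonneg hp.le (Finset.sum_nonneg (fun j _ => hF0 j))
  · rw [Complex.ofReal_re]
    calc (1 / 2 : ℝ) ^ m * ∑ j ∈ range (2 ^ m), F j ≤ (1 / 2 : ℝ) ^ m * (2 ^ m * M) :=
          mul_le_mul_of_nonneg_left hsum hp.le
      _ = ((1 / 2 : ℝ) * 2) ^ m * M := by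
          rw [mul_pow]; ring
      _ = M := by norm_num

theorem norm_cc_le (m q : ℕ) (g : ℕ → ℕ → ℕ) (k : ℤ) : ‖cc m q g k‖ ≤ 1 := by
  unfold cc
  rw [norm_mul, norm_pow]
  have h1 : ‖∑ j ∈ range (2 ^ m), Complex.exp (-(k * (2 * Real.pi * yy m q g j : ℝ) *
      Complex.I))‖ ≤ 2 ^ m := by
    refine (norm_sum_le _ _).trans ?_
    have h2 : ∀ j ∈ range (2 ^ m), ‖Complex.exp (-(k * (2 * Real.pi * yy m q g j : ℝ) *
      Complex.I))‖ ≤ 1 := by
      intro j _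
      have h3 : (-((k : ℂ) * (2 * Real.pi * yy m q g j : ℝ) * Complex.I)) =
          ((-((k : ℝ) * (2 * Real.pi * yy m q g j)) : ℝ) : ℂ) * Complex.I := by
        push_cast
        ring
      rw [h3, Complex.norm_exp_ofReal_mul_I]
    refine (Finset.sum_le_sum h2).trans ?_
    simp
  have h2 : ‖(1 / 2 : ℂ)‖ = 1 / 2 := by norm_num
  rw [h2]
  have hp : (0 : ℝ) < (1 / 2 : ℝ) ^ m := by positivity
  calc (1 / 2 : ℝ) ^ m * _ ≤ (1 / 2 : ℝ) ^ m * 2 ^ m := mul_le_mul_of_nonneg_left h1 hp.le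
    _ = ((1 / 2 : ℝ) * 2) ^ m := by rw [mul_pow]
    _ = 1 := by norm_num

/-- comparison of the partial sums: `∑_{|k| ≤ n} |k| / M = n (n+1) / M ≤ 2` -/
theorem fj_compare (m q : ℕ) (g : ℕ → ℕ → ℕ) (M n : ℕ) (hn : 1 ≤ n) (hM : n ^ 2 ≤ M) (x : ℝ) :
    ‖PS (fj m q g M) n x - PS (cc m q g) n x‖ ≤ 2 := by
  have hnM : n ≤ M := le_trans (by nlinarith) hM
  have hM0 : 1 ≤ M := le_trans hn hnM
  have hMR : (0 : ℝ) < M := by exact_mod_cast hM0
  unfold PS
  rw [← Finset.sum_sub_distrib]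
  have hb : ∀ k ∈ Icc (-(n : ℤ)) n, ‖fj m q g M k * Complex.exp (k * x * Complex.I) -
      cc m q g k * Complex.exp (k * x * Complex.I)‖ ≤ if k = 0 then 0 else (n : ℝ) / M := by
    intro k hk
    have hk1 : |k| ≤ (n : ℤ) := by
      rw [Finset.mem_Icc] at hk
      exact abs_le.mpr hk
    have hk' : |k| ≤ (M : ℤ) := hk1.trans (by exact_mod_cast hnM)
    have hkR : |(k : ℝ)| ≤ n := by exact_mod_cast hk1
    unfold fj
    rw [if_pos hk']
    have e : ((1 - |(k : ℝ)| / M : ℝ) : ℂ) * cc m q g k * Complex.exp (k * x * Complex.I) -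
      cc m q g k * Complex.exp (k * x * Complex.I) =
        ((-(|(k : ℝ)| / M) : ℝ) : ℂ) * (cc m q g k * Complex.exp (((k : ℝ) * x : ℝ) * Complex.I)) := by
      push_cast
      ring
    rw [e, norm_mul, norm_mul, Complex.norm_exp_ofReal_mul_I, mul_one, Complex.norm_real,
      Real.norm_eq_abs, abs_neg]
    have h1 : |(|(k : ℝ)| / M)| = |(k : ℝ)| / M := abs_of_nonneg (by positivity)
    rw [h1]
    by_cases hk0 : k = 0
    · subst hk0
      simp
    · rw [if_neg hk0]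
      calc |(k : ℝ)| / M * ‖cc m q g k‖ ≤ |(k : ℝ)| / M * 1 :=
            mul_le_mul_of_nonneg_left (norm_cc_le m q g k) (by positivity)
        _ = |(k : ℝ)| / M := mul_one _
        _ ≤ (n : ℝ) / M := by gcongr
  refine (norm_sum_le _ _).trans ((Finset.sum_le_sum hb).trans ?_)
  have h0 : (0 : ℤ) ∈ Icc (-(n : ℤ)) n := by
    rw [Finset.mem_Icc]
    constructor <;> omega
  rw [← Finset.add_sum_erase _ _ h0, if_pos rfl, zero_add]
  have h1 : ∑ k ∈ (Icc (-(n : ℤ)) n).erase 0, (if k = 0 then (0 : ℝ) else (n : ℝ) / M) =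
      ∑ k ∈ (Icc (-(n : ℤ)) n).erase 0, (n : ℝ) / M := by
    apply Finset.sum_congr rfl
    intro k hk
    rw [if_neg (Finset.ne_of_mem_erase hk)]
  rw [h1, Finset.sum_const, nsmul_eq_mul]
  have hc : ((Icc (-(n : ℤ)) n).erase 0).card = 2 * n := by
    rw [Finset.card_erase_of_mem h0, Int.card_Icc]
    omega
  rw [hc]
  have hM' : (n : ℝ) ^ 2 ≤ M := by exact_mod_cast hM
  push_cast
  rw [← mul_div_assoc, div_le_iff₀ hMR]
  nlinarith

end P091
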