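import Vale.Agent.Lib.P091.Defs

/-! # P091 module KerB: the sum of the weights -/

open Finset

namespace P091

private noncomputable def FF (d : ℕ) : ℝ := if 2 ≤ d then 1 / ((d : ℝ) - 1) else 0

private theorem FF_nonneg (d : ℕ) : 0 ≤ FF d := by
  unfold FF
  split_ifs with h
  · have : (2 : ℝ) ≤ d := by exact_mod_cast h
    apply div_nonneg <;> linarith
  · exact le_refl _

private theorem sum_FF (k : ℕ) : ∑ d ∈ range (2 ^ k + 1), FF d ≤ k := by
  induction k with
  | zero => simp [FF, Finset.sum_range_succ]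
  | succ k ih =>
    have hle : 2 ^ k + 1 ≤ 2 ^ (k + 1) + 1 := by
      have : 2 ^ k ≤ 2 ^ (k + 1) := Nat.pow_le_pow_right (by norm_num) (by omega)
      omega
    rw [← Finset.sum_range_add_sum_Ico _ hle]
    have h2 : ∑ d ∈ Ico (2 ^ k + 1) (2 ^ (k + 1) + 1), FF d ≤ 1 := by
      have h3 : ∀ d ∈ Ico (2 ^ k + 1) (2 ^ (k + 1) + 1), FF d ≤ 1 / (2 : ℝ) ^ k := by
        intro d hd
        rw [Finset.mem_Ico] at hd
        unfold FF
        have h1 : 1 ≤ 2 ^ k := Nat.one_le_two_pow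
        rw [if_pos (by omega)]
        have h4 : ((2 ^ k + 1 : ℕ) : ℝ) ≤ d := by exact_mod_cast hd.1
        push_cast at h4
        have h5 : (0 : ℝ) < 2 ^ k := by positivity
        apply one_div_le_one_div_of_le h5
        linarith
      have h6 := Finset.sum_le_card_nsmul _ _ _ h3
      rw [Nat.card_Ico] at h6
      have h7 : 2 ^ (k + 1) + 1 - (2 ^ k + 1) = 2 ^ k := by
        rw [pow_succ]; omega
      rw [h7, nsmul_eq_mul] at h6
      push_cast at h6
      have h8 : (2 : ℝ) ^ k * (1 / 2 ^ k) = 1 := by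
        have : (2 : ℝ) ^ k ≠ 0 := by positivity
        field_simp
      linarith
    push_cast
    linarith

/-- For each `d` at most two `j` have `cd = d`; `∑_{d=2}^{N/2} 2/(d-1) ≤ 2 (1 + log N) ≤ 4 m`
(harmonic numbers, `N = 2^m`). -/
theorem sum_UU (m i : ℕ) (hm : 1 ≤ m) (hi : i < 2 ^ m) :
    ∑ j ∈ range (2 ^ m), UU (2 ^ m) i j ≤ 4 * m := by
  obtain ⟨k, rfl⟩ : ∃ k, m = k + 1 := ⟨m - 1, by omega⟩
  have hN : 2 ^ (k + 1) = 2 * 2 ^ k := by rw [pow_succ]; ring
  have hmaps : ∀ j ∈ range (2 ^ (k + 1)), cd (2 ^ (k + 1)) i j ∈ range (2 ^ k + 1) := by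
    intro j hj
    rw [Finset.mem_range] at hj ⊢
    unfold cd
    omega
  have hUU : ∀ j, UU (2 ^ (k + 1)) i j = FF (cd (2 ^ (k + 1)) i j) := fun j => rfl
  simp_rw [hUU]
  rw [← Finset.sum_fiberwise_of_maps_to hmaps]
  have hstep : ∀ d ∈ range (2 ^ k + 1),
      ∑ j ∈ range (2 ^ (k + 1)) with cd (2 ^ (k + 1)) i j = d, FF (cd (2 ^ (k + 1)) i j)
        ≤ 4 * FF d := by
    intro d hd
    have h1 : ∀ j ∈ (range (2 ^ (k + 1))).filter (fun j => cd (2 ^ (k + 1)) i j = d),
        FF (cd (2 ^ (k + 1)) i j) ≤ FF d := by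
      intro j hj
      rw [Finset.mem_filter] at hj
      rw [hj.2]
    have h2 := Finset.sum_le_card_nsmul _ _ _ h1
    have h3 : ((range (2 ^ (k + 1))).filter (fun j => cd (2 ^ (k + 1)) i j = d)) ⊆
        ({i + d, i - d, i + (2 ^ (k + 1) - d), i - (2 ^ (k + 1) - d)} : Finset ℕ) := by
      intro j hj
      rw [Finset.mem_filter, Finset.mem_range] at hj
      obtain ⟨hj1, hj2⟩ := hj
      unfold cd at hj2
      simp only [Finset.mem_insert, Finset.mem_singleton]
      omega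
    have h4 : ((range (2 ^ (k + 1))).filter (fun j => cd (2 ^ (k + 1)) i j = d)).card ≤ 4 :=
      (Finset.card_le_card h3).trans Finset.card_le_four
    refine h2.trans ?_
    rw [nsmul_eq_mul]
    have h5 : (((range (2 ^ (k + 1))).filter (fun j => cd (2 ^ (k + 1)) i j = d)).card : ℝ) ≤ 4 := by
      exact_mod_cast h4
    exact mul_le_mul_of_nonneg_right h5 (FF_nonneg d)
  refine (Finset.sum_le_sum hstep).trans ?_
  rw [← Finset.mul_sum]
  have := sum_FF k
  push_cast
  linarith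

end P091
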