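import Vale.Agent.Lib.P091.KerA

/-! # P091 module KerC: the main term -/

open Finset

namespace P091

theorem core_sum (N : ℕ) (hN : 0 < N) (f : ℕ → ℝ) (c : ℝ) (hc : 0 ≤ c) (S : Finset ℕ)
    (hS : S.card ≤ N) (hf : ∀ j ∈ S, -(c / N) ≤ f j) (D : ℕ) (φ : ℕ → ℕ)
    (hφ : ∀ d ∈ range D, φ d ∈ S) (inj : Set.InjOn φ (range D : Set ℕ)) (b : ℕ → ℝ)
    (hb : ∀ d ∈ range D, b d ≤ f (φ d)) :
    ∑ d ∈ range D, b d - c ≤ ∑ j ∈ S, f j := by
  classical
  have hN' : (0 : ℝ) < N := by exact_mod_cast hN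
  have hsub : (range D).image φ ⊆ S := by
    intro x hx
    rw [mem_image] at hx
    obtain ⟨d, hd, rfl⟩ := hx
    exact hφ d hd
  rw [← sum_sdiff hsub, sum_image inj]
  have h1 : ∑ d ∈ range D, b d ≤ ∑ d ∈ range D, f (φ d) := sum_le_sum hb
  have h2 : ∑ j ∈ S \ (range D).image φ, (-(c / N)) ≤ ∑ j ∈ S \ (range D).image φ, f j :=
    sum_le_sum fun j hj => hf j (mem_sdiff.1 hj).1
  rw [sum_const, nsmul_eq_mul] at h2
  have h3 : ((S \ (range D).image φ).card : ℝ) ≤ N := by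
    exact_mod_cast (card_le_card sdiff_subset).trans hS
  have h4 : ((S \ (range D).image φ).card : ℝ) * (c / N) ≤ N * (c / N) :=
    mul_le_mul_of_nonneg_right h3 (by positivity)
  have h5 : (N : ℝ) * (c / N) = c := by field_simp
  linarith

theorem harm_bound (m : ℕ) (hm : 2 ≤ m) :
    ((m : ℝ) - 4) / 6 ≤ ∑ d ∈ range (2 ^ (m - 2) - 1), 1 / (4 * ((d : ℝ) + 2)) := by
  obtain ⟨k, rfl⟩ := Nat.exists_eq_add_of_le hm
  have e0 : 2 + k - 2 = k := by omega
  rw [e0]
  obtain ⟨D, hD⟩ : ∃ D, 2 ^ k = D + 1 := ⟨2 ^ k - 1, by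
    have : 1 ≤ 2 ^ k := Nat.one_le_two_pow
    omega⟩
  have h1 := log_add_one_le_harmonic (2 ^ k)
  rw [harmonic_eq_sum_Icc] at h1
  have h2 : ((∑ i ∈ Icc 1 (2 ^ k), (((i : ℕ) : ℚ))⁻¹ : ℚ) : ℝ) =
      ∑ d ∈ range D, 1 / ((d : ℝ) + 2) + 1 := by
    push_cast
    rw [hD]
    have : Icc 1 (D + 1) = Ico 1 (D + 2) := by
      ext x; simp only [mem_Icc, mem_Ico]; omega
    rw [this, sum_Ico_eq_sum_range]
    have e : D + 2 - 1 = D + 1 := by omega
    rw [e, sum_range_succ']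
    congr 1
    · apply sum_congr rfl
      intro d _
      push_cast
      rw [one_div]
      congr 1
      ring
    · simp
  rw [h2] at h1
  have h3 : (k : ℝ) * Real.log 2 ≤ Real.log ((2 ^ k + 1 : ℕ) : ℝ) := by
    rw [← Real.log_pow]
    apply Real.log_le_log (by positivity)
    push_cast
    linarith
  have h4 := Real.log_two_gt_d9
  rw [hD, Nat.add_sub_cancel]
  have h5 : ∑ d ∈ range D, 1 / (4 * ((d : ℝ) + 2)) = (1 / 4) * ∑ d ∈ range D, 1 / ((d : ℝ) + 2) := by
    rw [mul_sum]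
    apply sum_congr rfl
    intro d _
    have : (d : ℝ) + 2 ≠ 0 := by positivity
    field_simp
  rw [h5]
  have h6 : (k : ℝ) * 0.69 ≤ (k : ℝ) * Real.log 2 := by
    apply mul_le_mul_of_nonneg_left _ (by positivity)
    linarith
  have h7 : (0 : ℝ) ≤ k := by positivity
  push_cast at *
  linarith

/-- the value of a term -/
theorem term_eq (s y : ℝ) (n : ℝ) (p : Prop) [Decidable p] (h1 : p → s < y) (h2 : ¬ p → y < s) :
    n * (Real.cos (Real.pi * (s - y)) / Real.sin (Real.pi * (s - y))) * (if p then -1 else 1) =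
      n * (Real.cos (Real.pi * |s - y|) / Real.sin (Real.pi * |s - y|)) := by
  split_ifs with h
  · have := h1 h
    rw [abs_of_neg (by linarith : s - y < 0)]
    have e : Real.pi * -(s - y) = -(Real.pi * (s - y)) := by ring
    rw [e, Real.cos_neg, Real.sin_neg, div_neg]
    ring
  · have := h2 h
    rw [abs_of_pos (by linarith : 0 < s - y)]
    ring

theorem term_lower (t δ : ℝ) (h0 : 0 < t) (hδ : 0 < δ) (h1 : t ≤ 1 - δ) :
    -(1 / (3 * δ)) ≤ Real.cos (Real.pi * t) / Real.sin (Real.pi * t) := by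
  have hpi := Real.pi_pos
  rcases le_total t (1 / 2) with h | h
  · have hs : 0 < Real.sin (Real.pi * t) :=
      Real.sin_pos_of_pos_of_lt_pi (by positivity) (by nlinarith)
    have hc : 0 ≤ Real.cos (Real.pi * t) :=
      Real.cos_nonneg_of_neg_pi_div_two_le_of_le (by nlinarith) (by nlinarith)
    have : 0 ≤ Real.cos (Real.pi * t) / Real.sin (Real.pi * t) := by positivity
    have : 0 ≤ 1 / (3 * δ) := by positivity
    linarith
  · have h2 := cot_upper t h0 (by linarith)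
    rw [min_eq_right (by linarith)] at h2
    have h3 : 1 / (3 * (1 - t)) ≤ 1 / (3 * δ) := by
      apply one_div_le_one_div_of_le (by positivity)
      linarith
    have h4 := neg_abs_le (Real.cos (Real.pi * t) / Real.sin (Real.pi * t))
    linarith

/-- The main term: `y j` in the cell `j`, `s` in the cell `i`. Put `t_j = |s - y_j|`. For `j ≠ i` the
sign factor is the sign of `s - y_j` (`s - y_j > 0` for `j < i`, `< 0` for `j > i`), so every term is
`2^-m cot (π t_j)` with `0 < t_j ≤ 1 - δ`. It is nonnegative for `t_j ≤ 1/2` and `≥ - 2^-m / (3 δ)` for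
`t_j > 1/2` (`cot_upper`): these terms sum to at least `-1/δ`. If `i < 2^m / 2` the terms
`j = i + d`, `1 ≤ d ≤ 2^m/4 - 1`, have `t_j < (d+1)/2^m ≤ 1/4`, hence are at least `1/(4 (d+1))`
(`cot_lower`); if `i ≥ 2^m / 2` take `j = i - d`. Their sum is
`≥ (1/4)(H_{2^m/4} - 1) ≥ (1/4)((m-2) log 2 - 1) ≥ (m - 4)/6`. -/
theorem main_term (m : ℕ) (hm : 2 ≤ m) (y : ℕ → ℝ) (i : ℕ) (hi : i < 2 ^ m) (s δ : ℝ) (hδ : 0 < δ)
    (hs0 : δ ≤ s) (hs1 : s ≤ 1 - δ) (hsi : (i : ℝ) / 2 ^ m ≤ s) (hsi' : s < (i + 1) / 2 ^ m)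
    (hy : ∀ j : ℕ, j < 2 ^ m → (j : ℝ) / 2 ^ m ≤ y j ∧ y j < (j + 1) / 2 ^ m) :
    ((m : ℝ) - 4) / 6 - 1 / δ ≤
      ∑ j ∈ (range (2 ^ m)).erase i, (1 / 2 ^ m : ℝ) *
        (Real.cos (Real.pi * (s - y j)) / Real.sin (Real.pi * (s - y j))) *
          (if i < j then -1 else 1) := by
  have hNpos : (0 : ℝ) < 2 ^ m := by positivity
  have hsi2 : (i : ℝ) ≤ s * 2 ^ m := by rwa [div_le_iff₀ hNpos] at hsi
  have hsi3 : s * 2 ^ m < i + 1 := by rwa [lt_div_iff₀ hNpos] at hsi'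
  have hy2 : ∀ j : ℕ, j < 2 ^ m → (j : ℝ) ≤ y j * 2 ^ m ∧ y j * 2 ^ m < j + 1 := by
    intro j hj
    obtain ⟨a, b⟩ := hy j hj
    exact ⟨by rwa [div_le_iff₀ hNpos] at a, by rwa [lt_div_iff₀ hNpos] at b⟩
  have hlt1 : ∀ j : ℕ, j < 2 ^ m → i < j → s < y j := by
    intro j hj hij
    obtain ⟨a, b⟩ := hy2 j hj
    have : (i : ℝ) + 1 ≤ j := by exact_mod_cast hij
    have : s * 2 ^ m < y j * 2 ^ m := by linarith
    exact lt_of_mul_lt_mul_right this hNpos.le
  have hlt2 : ∀ j : ℕ, j < 2 ^ m → j < i → y j < s := by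
    intro j hj hij
    obtain ⟨a, b⟩ := hy2 j hj
    have : (j : ℝ) + 1 ≤ i := by exact_mod_cast hij
    have : y j * 2 ^ m < s * 2 ^ m := by linarith
    exact lt_of_mul_lt_mul_right this hNpos.le
  have hy0 : ∀ j : ℕ, j < 2 ^ m → 0 ≤ y j := by
    intro j hj
    exact le_trans (by positivity) (hy j hj).1
  have hy1 : ∀ j : ℕ, j < 2 ^ m → y j < 1 := by
    intro j hj
    obtain ⟨a, b⟩ := hy2 j hj
    have h3 : (j : ℝ) + 1 ≤ 2 ^ m := by exact_mod_cast hj
    have : y j * 2 ^ m < 1 * 2 ^ m := by linarith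
    exact lt_of_mul_lt_mul_right this hNpos.le
  have hterm : ∀ j ∈ (range (2 ^ m)).erase i, (1 / 2 ^ m : ℝ) *
        (Real.cos (Real.pi * (s - y j)) / Real.sin (Real.pi * (s - y j))) *
          (if i < j then -1 else 1) = (1 / 2 ^ m : ℝ) *
        (Real.cos (Real.pi * |s - y j|) / Real.sin (Real.pi * |s - y j|)) := by
    intro j hj
    rw [mem_erase, mem_range] at hj
    exact term_eq s (y j) _ (i < j) (fun h => hlt1 j hj.2 h) (fun h => hlt2 j hj.2 (by omega))
  rw [sum_congr rfl hterm]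
  have hpos : ∀ j ∈ (range (2 ^ m)).erase i, 0 < |s - y j| := by
    intro j hj
    rw [mem_erase, mem_range] at hj
    rw [abs_pos, sub_ne_zero]
    rcases lt_or_gt_of_ne hj.1 with h | h
    · exact (hlt2 j hj.2 h).ne'
    · exact (hlt1 j hj.2 h).ne
  have hle : ∀ j ∈ (range (2 ^ m)).erase i, |s - y j| ≤ 1 - δ := by
    intro j hj
    rw [mem_erase, mem_range] at hj
    rw [abs_le]
    have := hy0 j hj.2
    have := hy1 j hj.2
    constructor <;> linarith
  have hlow : ∀ j ∈ (range (2 ^ m)).erase i, -((1 / (3 * δ)) / (2 ^ m : ℕ)) ≤ (1 / 2 ^ m : ℝ) *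
        (Real.cos (Real.pi * |s - y j|) / Real.sin (Real.pi * |s - y j|)) := by
    intro j hj
    have h1 := term_lower _ δ (hpos j hj) hδ (hle j hj)
    have h2 := mul_le_mul_of_nonneg_left h1 (by positivity : (0 : ℝ) ≤ 1 / 2 ^ m)
    refine le_trans (le_of_eq ?_) h2
    push_cast
    ring
  have hcard : ((range (2 ^ m)).erase i).card ≤ 2 ^ m := by
    refine (card_le_card (erase_subset _ _)).trans ?_
    rw [card_range]
  have hbig : ∀ j ∈ (range (2 ^ m)).erase i, ∀ d : ℕ, |s - y j| * 2 ^ m ≤ d + 2 →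
      (d + 2) * 4 ≤ 2 ^ m → 1 / (4 * ((d : ℝ) + 2)) ≤ (1 / 2 ^ m : ℝ) *
        (Real.cos (Real.pi * |s - y j|) / Real.sin (Real.pi * |s - y j|)) := by
    intro j hj d hd hd2
    have hp := hpos j hj
    have hd2' : ((d : ℝ) + 2) * 4 ≤ 2 ^ m := by exact_mod_cast hd2
    have h4 : |s - y j| ≤ 1 / 4 := by
      have : |s - y j| * 2 ^ m ≤ 1 / 4 * 2 ^ m := by linarith
      exact le_of_mul_le_mul_right this hNpos
    have h5 := cot_lower _ hp h4
    have h6 := mul_le_mul_of_nonneg_left h5 (by positivity : (0 : ℝ) ≤ 1 / 2 ^ m)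
    refine le_trans ?_ h6
    rw [one_div_mul_one_div]
    apply one_div_le_one_div_of_le (by positivity)
    linarith
  have hfour : 2 ^ m = 4 * 2 ^ (m - 2) := by
    obtain ⟨k, rfl⟩ := Nat.exists_eq_add_of_le hm
    have e0 : 2 + k - 2 = k := by omega
    rw [e0, pow_add]; norm_num
  have hone : 1 ≤ 2 ^ (m - 2) := Nat.one_le_two_pow
  have hfinal : ∀ φ : ℕ → ℕ, (∀ d ∈ range (2 ^ (m - 2) - 1), φ d ∈ (range (2 ^ m)).erase i) →
      Set.InjOn φ (range (2 ^ (m - 2) - 1) : Set ℕ) →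
      (∀ d ∈ range (2 ^ (m - 2) - 1), |s - y (φ d)| * 2 ^ m ≤ d + 2) →
      ((m : ℝ) - 4) / 6 - 1 / δ ≤ ∑ j ∈ (range (2 ^ m)).erase i, (1 / 2 ^ m : ℝ) *
        (Real.cos (Real.pi * |s - y j|) / Real.sin (Real.pi * |s - y j|)) := by
    intro φ h1 h2 h3
    have h4 := core_sum (2 ^ m) (by positivity) _ (1 / (3 * δ)) (by positivity) _ hcard hlow
      (2 ^ (m - 2) - 1) φ h1 h2 (fun d => 1 / (4 * ((d : ℝ) + 2))) (by
        intro d hd
        apply hbig _ (h1 d hd) d (h3 d hd)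
        rw [mem_range] at hd
        omega)
    have h5 := harm_bound m hm
    have h6 : 1 / (3 * δ) ≤ 1 / δ := by
      apply one_div_le_one_div_of_le hδ
      linarith
    linarith
  rcases lt_or_ge i (2 * 2 ^ (m - 2)) with h | h
  · refine hfinal (fun d => i + (d + 1)) ?_ ?_ ?_
    · intro d hd
      rw [mem_range] at hd
      rw [mem_erase, mem_range]
      constructor
      · omega
      · omega
    · intro a _ b _ hab
      simp only at hab
      omega
    · intro d hd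
      rw [mem_range] at hd
      have hj : i + (d + 1) < 2 ^ m := by omega
      obtain ⟨a, b⟩ := hy2 _ hj
      have h7 := hlt1 _ hj (by omega)
      rw [abs_of_neg (by linarith)]
      push_cast at a b
      linarith
  · refine hfinal (fun d => i - (d + 1)) ?_ ?_ ?_
    · intro d hd
      rw [mem_range] at hd
      rw [mem_erase, mem_range]
      constructor
      · omega
      · omega
    · intro a ha b hb hab
      simp only [coe_range, Set.mem_Iio] at ha hb hab
      omega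
    · intro d hd
      rw [mem_range] at hd
      have hj : i - (d + 1) < 2 ^ m := by omega
      obtain ⟨a, b⟩ := hy2 _ hj
      have h7 := hlt2 _ hj (by omega)
      rw [abs_of_pos (by linarith)]
      have h8 : ((i - (d + 1) : ℕ) : ℝ) = (i : ℝ) - (d + 1) := by
        rw [Nat.cast_sub (by omega)]
        push_cast
        ring
      rw [h8] at a b
      linarith

end P091
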