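import Vale.Agent.Lib.P091.KerA

/-! # P091 module KerD: the error terms -/

open Finset

namespace P091

theorem abs_cot_abs (x : ℝ) :
    |Real.cos (Real.pi * x) / Real.sin (Real.pi * x)| =
      |Real.cos (Real.pi * |x|) / Real.sin (Real.pi * |x|)| := by
  rcases abs_cases x with ⟨h, _⟩ | ⟨h, _⟩
  · rw [h]
  · rw [h]
    have e : Real.pi * -x = -(Real.pi * x) := by ring
    rw [e, Real.cos_neg, Real.sin_neg, div_neg, abs_neg]

theorem scaled_cot (N x c : ℝ) (hN : 0 < N) (hc : 0 < c) (h1 : c / N ≤ |x|)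
    (h2 : c / N ≤ 1 - |x|) :
    1 / N * |Real.cos (Real.pi * x) / Real.sin (Real.pi * x)| ≤ 1 / (3 * c) := by
  have hcN : 0 < c / N := by positivity
  rw [abs_cot_abs]
  have h3 := cot_upper |x| (by linarith) (by linarith)
  have h4 : c / N ≤ min |x| (1 - |x|) := le_min h1 h2
  have h5 : 1 / (3 * min |x| (1 - |x|)) ≤ 1 / (3 * (c / N)) := by
    apply one_div_le_one_div_of_le (by positivity)
    linarith
  have h6 := mul_le_mul_of_nonneg_left (h3.trans h5) (by positivity : (0 : ℝ) ≤ 1 / N)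
  refine h6.trans (le_of_eq ?_)
  field_simp

/-- The error terms. For `cd ≥ 2`: `|s - y_j|` and `1 - |s - y_j|` are at least `(cd - 1) / 2^m`, so
`2^-m |cot| ≤ 1 / (3 (cd - 1)) ≤ UU` by `cot_upper`. As `δ ≥ 2/2^m`, `2 ≤ i ≤ 2^m - 2`, so
`cd ≤ 1` only for `j ∈ {i-1, i, i+1}`, where `η/2^m ≤ |s - y_j| ≤ 2/2^m`, hence `2^-m |cot| ≤ 1/(3η)`. -/
theorem error_term (m : ℕ) (hm : 2 ≤ m) (y : ℕ → ℝ) (i : ℕ) (hi : i < 2 ^ m) (s δ η : ℝ)
    (hδ : 0 < δ) (hη : 0 < η) (hη1 : η ≤ 1) (hδm : 2 / 2 ^ m ≤ δ)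
    (hs0 : δ ≤ s) (hs1 : s ≤ 1 - δ) (hsi : (i : ℝ) / 2 ^ m ≤ s) (hsi' : s < (i + 1) / 2 ^ m)
    (hy : ∀ j : ℕ, j < 2 ^ m → (j : ℝ) / 2 ^ m ≤ y j ∧ y j < (j + 1) / 2 ^ m)
    (hyη : ∀ j : ℕ, j < 2 ^ m → η / 2 ^ m ≤ |s - y j|)
    (v : ℕ → ℝ) (hv0 : ∀ j, 0 ≤ v j) (w : ℕ → ℝ)
    (hw : ∀ j : ℕ, j < 2 ^ m → 2 ≤ cd (2 ^ m) i j → v j ≤ w j) (hv2 : ∀ j, v j ≤ 2) :
    ∑ j ∈ range (2 ^ m), (1 / 2 ^ m : ℝ) *
        |Real.cos (Real.pi * (s - y j)) / Real.sin (Real.pi * (s - y j))| * v j ≤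
      ∑ j ∈ range (2 ^ m), UU (2 ^ m) i j * w j + 2 / η := by
  classical
  have hNpos : (0 : ℝ) < 2 ^ m := by positivity
  have hsi2 : (i : ℝ) ≤ s * 2 ^ m := by rwa [div_le_iff₀ hNpos] at hsi
  have hsi3 : s * 2 ^ m < i + 1 := by rwa [lt_div_iff₀ hNpos] at hsi'
  have hδ2 : 2 ≤ δ * 2 ^ m := by rwa [div_le_iff₀ hNpos] at hδm
  have hy2 : ∀ j : ℕ, j < 2 ^ m → (j : ℝ) ≤ y j * 2 ^ m ∧ y j * 2 ^ m < j + 1 := by
    intro j hj
    obtain ⟨a, b⟩ := hy j hj
    exact ⟨by rwa [div_le_iff₀ hNpos] at a, by rwa [lt_div_iff₀ hNpos] at b⟩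
  have hs0' : δ * 2 ^ m ≤ s * 2 ^ m := mul_le_mul_of_nonneg_right hs0 hNpos.le
  have hs1' : s * 2 ^ m ≤ (1 - δ) * 2 ^ m := mul_le_mul_of_nonneg_right hs1 hNpos.le
  have hi2 : 2 ≤ i := by
    have : (1 : ℝ) < i := by linarith
    exact_mod_cast this
  have hi3 : i + 2 ≤ 2 ^ m := by
    have : (i : ℝ) + 2 ≤ 2 ^ m := by linarith
    exact_mod_cast this
  -- the set of near cells
  set K : Finset ℕ := (range (2 ^ m)).filter (fun j => ¬ 2 ≤ cd (2 ^ m) i j) with hK
  have hKsub : K ⊆ {i - 1, i, i + 1} := by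
    intro j hj
    rw [hK, mem_filter, mem_range] at hj
    obtain ⟨h1, h2⟩ := hj
    unfold cd at h2
    simp only [mem_insert, mem_singleton]
    omega
  have hKcard : (K.card : ℝ) ≤ 3 := by
    have : K.card ≤ 3 := (card_le_card hKsub).trans card_le_three
    exact_mod_cast this
  have hfar : ∀ j : ℕ, j < 2 ^ m → 2 ≤ cd (2 ^ m) i j → (1 / 2 ^ m : ℝ) *
        |Real.cos (Real.pi * (s - y j)) / Real.sin (Real.pi * (s - y j))| ≤ UU (2 ^ m) i j := by
    intro j hj hcd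
    obtain ⟨a, b⟩ := hy2 j hj
    have hUU : UU (2 ^ m) i j = 1 / ((cd (2 ^ m) i j : ℝ) - 1) := by
      unfold UU; rw [if_pos hcd]
    have hcd' : (2 : ℝ) ≤ cd (2 ^ m) i j := by exact_mod_cast hcd
    rw [hUU]
    have hD1 : (cd (2 ^ m) i j : ℝ) ≤ |(i : ℝ) - j| := by
      unfold cd
      rcases le_total i j with h | h
      · rw [max_eq_right h, min_eq_left h, abs_of_nonpos (by
          have : (i : ℝ) ≤ j := by exact_mod_cast h
          linarith)]
        have : ((min (j - i) (2 ^ m - (j - i)) : ℕ) : ℝ) ≤ ((j - i : ℕ) : ℝ) := by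
          exact_mod_cast min_le_left _ _
        rw [Nat.cast_sub h] at this
        linarith
      · rw [max_eq_left h, min_eq_right h, abs_of_nonneg (by
          have : (j : ℝ) ≤ i := by exact_mod_cast h
          linarith)]
        have : ((min (i - j) (2 ^ m - (i - j)) : ℕ) : ℝ) ≤ ((i - j : ℕ) : ℝ) := by
          exact_mod_cast min_le_left _ _
        rw [Nat.cast_sub h] at this
        linarith
    have hD2 : (cd (2 ^ m) i j : ℝ) ≤ 2 ^ m - |(i : ℝ) - j| := by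
      unfold cd
      rcases le_total i j with h | h
      · rw [max_eq_right h, min_eq_left h, abs_of_nonpos (by
          have : (i : ℝ) ≤ j := by exact_mod_cast h
          linarith)]
        have : ((min (j - i) (2 ^ m - (j - i)) : ℕ) : ℝ) ≤ ((2 ^ m - (j - i) : ℕ) : ℝ) := by
          exact_mod_cast min_le_right _ _
        rw [Nat.cast_sub (by omega : j - i ≤ 2 ^ m), Nat.cast_sub h] at this
        push_cast at this ⊢
        linarith
      · rw [max_eq_left h, min_eq_right h, abs_of_nonneg (by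
          have : (j : ℝ) ≤ i := by exact_mod_cast h
          linarith)]
        have : ((min (i - j) (2 ^ m - (i - j)) : ℕ) : ℝ) ≤ ((2 ^ m - (i - j) : ℕ) : ℝ) := by
          exact_mod_cast min_le_right _ _
        rw [Nat.cast_sub (by omega : i - j ≤ 2 ^ m), Nat.cast_sub h] at this
        push_cast at this ⊢
        linarith
    have hab : |(|s - y j| * 2 ^ m - |(i : ℝ) - j|)| ≤ 1 := by
      have e : |s - y j| * 2 ^ m = |(s - y j) * 2 ^ m| := by
        rw [abs_mul, abs_of_pos hNpos]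
      rw [e]
      refine (abs_abs_sub_abs_le _ _).trans ?_
      rw [abs_le]
      constructor <;> nlinarith
    rw [abs_le] at hab
    have h7 := scaled_cot (2 ^ m) (s - y j) ((cd (2 ^ m) i j : ℝ) - 1) hNpos (by linarith)
      (by
        rw [div_le_iff₀ hNpos]
        linarith)
      (by
        rw [div_le_iff₀ hNpos]
        linarith)
    refine h7.trans ?_
    apply one_div_le_one_div_of_le (by linarith)
    linarith
  have hnear : ∀ j ∈ K, (1 / 2 ^ m : ℝ) *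
        |Real.cos (Real.pi * (s - y j)) / Real.sin (Real.pi * (s - y j))| * v j ≤ 2 / (3 * η) := by
    intro j hj
    rw [hK, mem_filter, mem_range] at hj
    obtain ⟨h1, h2⟩ := hj
    obtain ⟨a, b⟩ := hy2 j h1
    have h3 := scaled_cot (2 ^ m) (s - y j) η hNpos hη (hyη j h1) (by
      rw [div_le_iff₀ hNpos]
      have hle : |s - y j| ≤ 1 - δ := by
        rw [abs_le]
        have h4 : 0 ≤ y j := le_trans (by positivity) (hy j h1).1
        have h5 : y j * 2 ^ m < 1 * 2 ^ m := by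
          have : (j : ℝ) + 1 ≤ 2 ^ m := by exact_mod_cast h1
          linarith
        have h6 : y j < 1 := lt_of_mul_lt_mul_right h5 hNpos.le
        constructor <;> linarith
      have : δ * 2 ^ m ≤ (1 - |s - y j|) * 2 ^ m := mul_le_mul_of_nonneg_right (by linarith) hNpos.le
      linarith)
    calc _ ≤ 1 / (3 * η) * 2 := by
          apply mul_le_mul h3 (hv2 j) (hv0 j) (by positivity)
      _ = 2 / (3 * η) := by ring
  rw [← sum_filter_add_sum_filter_not (range (2 ^ m)) (fun j => 2 ≤ cd (2 ^ m) i j)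
    (fun j => (1 / 2 ^ m : ℝ) *
        |Real.cos (Real.pi * (s - y j)) / Real.sin (Real.pi * (s - y j))| * v j),
    ← sum_filter_add_sum_filter_not (range (2 ^ m)) (fun j => 2 ≤ cd (2 ^ m) i j)
    (fun j => UU (2 ^ m) i j * w j)]
  have e0 : ∑ j ∈ (range (2 ^ m)).filter (fun j => ¬ 2 ≤ cd (2 ^ m) i j), UU (2 ^ m) i j * w j = 0 := by
    apply sum_eq_zero
    intro j hj
    rw [mem_filter] at hj
    have : UU (2 ^ m) i j = 0 := by
      unfold UU; rw [if_neg hj.2]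
    rw [this, zero_mul]
  rw [e0, add_zero]
  apply add_le_add
  · apply sum_le_sum
    intro j hj
    rw [mem_filter, mem_range] at hj
    have h1 := hfar j hj.1 hj.2
    have h2 : 0 ≤ UU (2 ^ m) i j := le_trans (by positivity) h1
    exact (mul_le_mul_of_nonneg_right h1 (hv0 j)).trans
      (mul_le_mul_of_nonneg_left (hw j hj.1 hj.2) h2)
  · calc _ ≤ ∑ j ∈ K, 2 / (3 * η) := sum_le_sum hnear
      _ = K.card * (2 / (3 * η)) := by rw [sum_const, nsmul_eq_mul]
      _ ≤ 3 * (2 / (3 * η)) := mul_le_mul_of_nonneg_right hKcard (by positivity)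
      _ = 2 / η := by field_simp

end P091
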