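import Vale.Agent.Lib.P091.Defs

/-! # P091 module Phase: the phases -/

open Finset

namespace P091

private theorem phase_term (P P' : ℕ) : ∃ n : ℕ, (2 : ℝ) ^ P * (1 / 2 : ℝ) ^ (P' + 1)
    = n + (if P = P' then (1 / 2 : ℝ) else 0)
      + (if P < P' then (1 / 2 : ℝ) ^ (P' - P + 1) else 0) := by
  rcases lt_trichotomy P P' with h | h | h
  · obtain ⟨d, rfl⟩ := Nat.exists_eq_add_of_lt h
    refine ⟨0, ?_⟩
    rw [if_neg (by omega), if_pos (by omega)]
    have e : P + d + 1 - P + 1 = d + 2 := by omega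
    rw [e, show P + d + 1 + 1 = P + (d + 2) by ring, pow_add, ← mul_assoc, ← mul_pow]
    norm_num
  · subst h
    refine ⟨0, ?_⟩
    rw [if_pos rfl, if_neg (lt_irrefl _), pow_succ, ← mul_assoc, ← mul_pow]
    norm_num
  · obtain ⟨d, rfl⟩ := Nat.exists_eq_add_of_lt h
    refine ⟨2 ^ d, ?_⟩
    rw [if_neg (by omega), if_neg (by omega), show P' + d + 1 = (P' + 1) + d by ring, pow_add,
      mul_assoc, mul_comm ((2 : ℝ) ^ d), ← mul_assoc, ← mul_pow]
    norm_num

private theorem pos_eq_iff {q : ℕ} {g : ℕ → ℕ → ℕ} (hg : ∀ l a, g l a < q) (l l' i j : ℕ) :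
    pos q g l i = pos q g l' j ↔ l' = l ∧ g l (i / 2 ^ (l + 1)) = g l (j / 2 ^ (l + 1)) := by
  unfold pos
  constructor
  · intro h
    have h1 := hg l (i / 2 ^ (l + 1))
    have h2 := hg l' (j / 2 ^ (l' + 1))
    have hll : l' = l := by
      rcases lt_trichotomy l l' with hl | hl | hl
      · exfalso
        have : (l + 1) * q ≤ l' * q := Nat.mul_le_mul_right q hl
        rw [add_mul, one_mul] at this
        omega
      · exact hl.symm
      · exfalso
        have : (l' + 1) * q ≤ l * q := Nat.mul_le_mul_right q hl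
        rw [add_mul, one_mul] at this
        omega
    subst hll
    exact ⟨rfl, by omega⟩
  · rintro ⟨rfl, h⟩
    rw [h]

private theorem bits_card (m i j : ℕ) (_hi : i < 2 ^ m) (hj : j < 2 ^ m) (hij : i ≠ j) :
    ((Zs m i ∩ Os m j).filter (fun l => i / 2 ^ (l + 1) = j / 2 ^ (l + 1))).card
      = if i < j then 1 else 0 := by
  have hbits : ∀ l, i / 2 ^ (l + 1) = j / 2 ^ (l + 1) → ∀ b, l < b → i.testBit b = j.testBit b := by
    intro l h b hb
    obtain ⟨c, rfl⟩ := Nat.exists_eq_add_of_lt hb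
    have h1 := Nat.testBit_div_two_pow (n := l + 1) i c
    have h2 := Nat.testBit_div_two_pow (n := l + 1) j c
    rw [h] at h1
    rw [show l + c + 1 = c + (l + 1) by ring, ← h1, ← h2]
  by_cases hlt : i < j
  · rw [if_pos hlt]
    have hx : i ^^^ j ≠ 0 := fun h => hij (Nat.xor_eq_zero_iff.1 h)
    obtain ⟨l, hl1, hl2⟩ := Nat.exists_most_significant_bit hx
    rw [Nat.testBit_xor] at hl1
    have hl3 : ∀ b, l < b → i.testBit b = j.testBit b := by
      intro b hb
      have := hl2 b hb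
      rw [Nat.testBit_xor] at this
      revert this
      cases i.testBit b <;> cases j.testBit b <;> simp
    have hij' : i.testBit l = false ∧ j.testBit l = true := by
      revert hl1
      cases hib : i.testBit l <;> cases hjb : j.testBit l <;> simp
      exact absurd (Nat.lt_of_testBit l hjb hib (fun b hb => (hl3 b hb).symm)) (by omega)
    have hlm : l < m := by
      by_contra hcon
      have := Nat.testBit_lt_two_pow
        (lt_of_lt_of_le hj (Nat.pow_le_pow_right (by norm_num) (not_lt.1 hcon)))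
      rw [hij'.2] at this
      exact absurd this (by simp)
    rw [Finset.card_eq_one]
    refine ⟨l, ?_⟩
    ext b
    simp only [Zs, Os, Finset.mem_filter, Finset.mem_inter, Finset.mem_range,
      Finset.mem_singleton]
    constructor
    · rintro ⟨⟨⟨hb1, hb2⟩, hb3, hb4⟩, hb5⟩
      rcases lt_trichotomy b l with hbl | hbl | hbl
      · have := hbits b hb5 l hbl
        rw [hij'.1, hij'.2] at this
        exact absurd this (by simp)
      · exact hbl
      · have := hl3 b hbl
        rw [hb2, hb4] at this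
        exact absurd this (by simp)
    · rintro rfl
      refine ⟨⟨⟨hlm, hij'.1⟩, hlm, hij'.2⟩, ?_⟩
      refine Nat.eq_of_testBit_eq fun c => ?_
      rw [Nat.testBit_div_two_pow, Nat.testBit_div_two_pow]
      exact hl3 _ (by omega)
  · rw [if_neg hlt, Finset.card_eq_zero, Finset.filter_eq_empty_iff]
    intro l hl h
    simp only [Zs, Os, Finset.mem_filter, Finset.mem_inter, Finset.mem_range] at hl
    exact hlt (Nat.lt_of_testBit l hl.1.2 hl.2.2 (hbits l h))

private theorem coll_card (m : ℕ) (g : ℕ → ℕ → ℕ) (i j : ℕ) (hi : i < 2 ^ m)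
    (hj : j < 2 ^ m) (hij : i ≠ j) :
    ((Zs m i ∩ Os m j).filter (fun l => g l (i / 2 ^ (l + 1)) = g l (j / 2 ^ (l + 1)))).card
      = fcol m g i j + if i < j then 1 else 0 := by
  rw [← bits_card m i j hi hj hij]
  unfold fcol
  rw [← Finset.card_union_of_disjoint]
  · congr 1
    ext l
    simp only [Finset.mem_filter, Finset.mem_union]
    constructor
    · rintro ⟨h1, h2⟩
      by_cases h : i / 2 ^ (l + 1) = j / 2 ^ (l + 1)
      · exact Or.inr ⟨h1, h⟩
      · exact Or.inl ⟨h1, h, h2⟩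
    · rintro (⟨h1, _, h2⟩ | ⟨h1, h2⟩)
      · exact ⟨h1, h2⟩
      · exact ⟨h1, by rw [h2]⟩
  · rw [Finset.disjoint_filter]
    intro l _ h1 h2
    exact h1.1 h2

private theorem freq_tau (m q : ℕ) (g : ℕ → ℕ → ℕ) (hg : ∀ l a, g l a < q) (i j : ℕ)
    (hi : i < 2 ^ m) (hj : j < 2 ^ m) (hij : i ≠ j) :
    ∃ n : ℕ, (freq m q g i * tau m q g j : ℝ)
      = n + (1 / 2 : ℝ) * ((fcol m g i j + if i < j then 1 else 0 : ℕ) : ℝ) + eps m q g i j := by
  choose n hn using fun l l' => phase_term (pos q g l i) (pos q g l' j)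
  refine ⟨∑ l ∈ Zs m i, ∑ l' ∈ Os m j, n l l', ?_⟩
  have h1 : (freq m q g i * tau m q g j : ℝ)
      = ∑ l ∈ Zs m i, ∑ l' ∈ Os m j, (2 : ℝ) ^ pos q g l i * (1 / 2 : ℝ) ^ (pos q g l' j + 1) := by
    unfold freq tau
    push_cast
    rw [Finset.sum_mul_sum]
  rw [h1]
  simp_rw [hn, Finset.sum_add_distrib]
  unfold eps
  congr 1
  push_cast
  congr 1
  have h2 : ∀ l ∈ Zs m i, (∑ l' ∈ Os m j, if pos q g l i = pos q g l' j then (1 / 2 : ℝ) else 0)
      = if l ∈ Os m j ∧ g l (i / 2 ^ (l + 1)) = g l (j / 2 ^ (l + 1)) then (1 / 2 : ℝ) else 0 := by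
    intro l _
    simp_rw [pos_eq_iff hg]
    by_cases hG : g l (i / 2 ^ (l + 1)) = g l (j / 2 ^ (l + 1))
    · simp only [hG, and_true]
      rw [Finset.sum_ite_eq' (Os m j) l (fun _ => (1 / 2 : ℝ))]
    · simp only [hG, and_false, if_false, Finset.sum_const_zero]
  rw [Finset.sum_congr rfl h2, ← Finset.sum_filter, Finset.sum_const, nsmul_eq_mul]
  have h3 : (Zs m i).filter (fun l => l ∈ Os m j ∧ g l (i / 2 ^ (l + 1)) = g l (j / 2 ^ (l + 1)))
      = (Zs m i ∩ Os m j).filter (fun l => g l (i / 2 ^ (l + 1)) = g l (j / 2 ^ (l + 1))) := by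
    ext l
    simp only [Finset.mem_filter, Finset.mem_inter]
    tauto
  rw [h3, coll_card m g i j hi hj hij]
  push_cast
  ring

private theorem eps_nonneg (m q : ℕ) (g : ℕ → ℕ → ℕ) (i j : ℕ) : 0 ≤ eps m q g i j := by
  unfold eps
  refine Finset.sum_nonneg fun l _ => Finset.sum_nonneg fun l' _ => ?_
  split_ifs <;> positivity

/-- Expand `freq i * tau j = ∑_{l ∈ Zs i} ∑_{l' ∈ Os j} 2^P / 2^(P'+1)` with `P = pos q g l i`,
`P' = pos q g l' j`. Pairs with `P > P'` give integers, pairs with `P < P'` sum up to `eps`, pairs with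
`P = P'` give `1/2` each and force `l = l'` (as `P ∈ [l q, (l+1) q)`), so they are counted by
`#{l ∈ Zs i ∩ Os j | g l (i / 2^(l+1)) = g l (j / 2^(l+1))} = fcol + t`, where `t` is the number of
`l ∈ Zs i ∩ Os j` with `i / 2^(l+1) = j / 2^(l+1)`: `t = 1` if `i < j`, `t = 0` if `j < i` (`l` is the
first level from the top where the bits differ). So `exp (2πi freq tau) = (-1)^(fcol + t) exp(2πi eps)`.
If `fcol = 0` the difference is `|exp(2πi eps) - 1| ≤ 2π eps ≤ 7 eps`, otherwise it is `≤ 2`. -/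
theorem phase (m q : ℕ) (g : ℕ → ℕ → ℕ) (hg : ∀ l a, g l a < q) (i j : ℕ) (hi : i < 2 ^ m)
    (hj : j < 2 ^ m) (hij : i ≠ j) :
    ‖Complex.exp (2 * Real.pi * Complex.I * (freq m q g i * tau m q g j : ℝ)) -
      (if i < j then -1 else 1)‖ ≤ 7 * ww m q g i j := by
  obtain ⟨n, hn⟩ := freq_tau m q g hg i j hi hj hij
  set t : ℕ := if i < j then 1 else 0 with ht
  set f := fcol m g i j with hf
  have hE := eps_nonneg m q g i j
  have hexp : Complex.exp (2 * Real.pi * Complex.I * (freq m q g i * tau m q g j : ℝ))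
      = (-1) ^ (f + t) * Complex.exp (Complex.I * ((2 * Real.pi * eps m q g i j : ℝ) : ℂ)) := by
    rw [hn]
    have e1 : (2 * Real.pi * Complex.I
        * ((n + (1 / 2 : ℝ) * ((f + t : ℕ) : ℝ) + eps m q g i j : ℝ) : ℂ))
        = n * (2 * Real.pi * Complex.I) + (f + t : ℕ) * (Real.pi * Complex.I)
          + Complex.I * ((2 * Real.pi * eps m q g i j : ℝ) : ℂ) := by
      push_cast
      ring
    rw [e1, Complex.exp_add, Complex.exp_add, Complex.exp_nat_mul_two_pi_mul_I, one_mul,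
      Complex.exp_nat_mul, Complex.exp_pi_mul_I]
  have hsgn : (if i < j then (-1 : ℂ) else 1) = (-1) ^ t := by
    rw [ht]
    split_ifs <;> simp
  rw [hexp, hsgn]
  have e2 : (-1 : ℂ) ^ (f + t) * Complex.exp (Complex.I * ((2 * Real.pi * eps m q g i j : ℝ) : ℂ))
      - (-1) ^ t = (-1) ^ t * ((-1) ^ f
        * Complex.exp (Complex.I * ((2 * Real.pi * eps m q g i j : ℝ) : ℂ)) - 1) := by
    rw [pow_add]
    ring
  rw [e2, norm_mul, norm_pow, norm_neg, norm_one, one_pow, one_mul]
  unfold ww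
  rw [← hf]
  rcases Nat.eq_zero_or_pos f with h0 | h0
  · rw [h0, pow_zero, one_mul]
    refine (Real.norm_exp_I_mul_ofReal_sub_one_le).trans ?_
    rw [Real.norm_eq_abs, abs_of_nonneg (by positivity)]
    have hpi := Real.pi_lt_d2
    push_cast
    nlinarith
  · have h1 : ‖(-1 : ℂ) ^ f * Complex.exp (Complex.I * ((2 * Real.pi * eps m q g i j : ℝ) : ℂ)) - 1‖
        ≤ 2 := by
      refine (norm_sub_le _ _).trans ?_
      rw [norm_mul, norm_pow, norm_neg, norm_one, one_pow, one_mul, Complex.norm_exp_I_mul_ofReal]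
      norm_num
    have h2 : (1 : ℝ) ≤ f := by exact_mod_cast h0
    linarith

end P091
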