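import Vale.Agent.Lib.P091.PtA
import Vale.Agent.Lib.P091.Phase
import Vale.Agent.Lib.P091.KerC
import Vale.Agent.Lib.P091.KerD

/-! # P091 module PtB: the pointwise lower bound -/

open Finset

namespace P091

private theorem ptB_exp_im (t : ℝ) : (Complex.exp (2 * Real.pi * Complex.I * (t : ℝ))).im =
    Real.sin (2 * Real.pi * t) := by
  have h : (2 * Real.pi * Complex.I * (t : ℝ) : ℂ) = ((2 * Real.pi * t : ℝ) : ℂ) * Complex.I := by
    push_cast; ring
  rw [h, Complex.exp_ofReal_mul_I_im]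

private theorem ptB_norm (t : ℝ) : ‖Complex.exp (2 * Real.pi * Complex.I * (t : ℝ))‖ = 1 := by
  have h : (2 * Real.pi * Complex.I * (t : ℝ) : ℂ) = ((2 * Real.pi * t : ℝ) : ℂ) * Complex.I := by
    push_cast; ring
  rw [h, Complex.norm_exp_ofReal_mul_I]

private theorem ptB_conj (t : ℝ) : (starRingEnd ℂ) (Complex.exp (2 * Real.pi * Complex.I * (t : ℝ))) =
    Complex.exp (2 * Real.pi * Complex.I * ((-t : ℝ) : ℝ)) := by
  have h : (2 * Real.pi * Complex.I * (t : ℝ) : ℂ) = ((2 * Real.pi * t : ℝ) : ℂ) * Complex.I := by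
    push_cast; ring
  have h' : (2 * Real.pi * Complex.I * ((-t : ℝ) : ℝ) : ℂ) =
      -(((2 * Real.pi * t : ℝ) : ℂ) * Complex.I) := by
    push_cast; ring
  rw [← Complex.exp_conj, h, h', map_mul, Complex.conj_ofReal, Complex.conj_I]
  congr 1
  ring

/-- the phases replaced by real signs -/
private theorem ptB_key (a t c : ℝ) :
    |Real.sin (2 * Real.pi * (a - t)) - c * Real.sin (2 * Real.pi * a)| ≤
      ‖Complex.exp (2 * Real.pi * Complex.I * (t : ℝ)) - c‖ := by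
  set z : ℂ := Complex.exp (2 * Real.pi * Complex.I * (a : ℝ)) *
    (starRingEnd ℂ) (Complex.exp (2 * Real.pi * Complex.I * (t : ℝ)) - c) with hz
  have h1 : z.im = Real.sin (2 * Real.pi * (a - t)) - c * Real.sin (2 * Real.pi * a) := by
    rw [hz, map_sub, ptB_conj, mul_sub, Complex.sub_im, ← Complex.exp_add]
    have h2 : (2 * Real.pi * Complex.I * (a : ℝ) + 2 * Real.pi * Complex.I * ((-t : ℝ) : ℝ) : ℂ) =
        2 * Real.pi * Complex.I * ((a - t : ℝ) : ℝ) := by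
      push_cast; ring
    rw [h2, ptB_exp_im]
    have h3 : (Complex.exp (2 * Real.pi * Complex.I * (a : ℝ)) * (starRingEnd ℂ) (c : ℂ)).im =
        c * Real.sin (2 * Real.pi * a) := by
      rw [Complex.conj_ofReal, Complex.im_mul_ofReal, ptB_exp_im]
      ring
    rw [h3]
  have h4 : ‖z‖ = ‖Complex.exp (2 * Real.pi * Complex.I * (t : ℝ)) - c‖ := by
    rw [hz, norm_mul, ptB_norm, one_mul, Complex.norm_conj]
  rw [← h1, ← h4]
  exact Complex.abs_im_le_norm z

private theorem ptB_PS (m q : ℕ) (g : ℕ → ℕ → ℕ) (n : ℕ) (s : ℝ)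
    (hsin : ∀ j : ℕ, j < 2 ^ m → Real.sin (Real.pi * (s - yy m q g j)) ≠ 0) :
    PS (cc m q g) n (2 * Real.pi * s) =
      ((∑ j ∈ range (2 ^ m), (1 / 2 ^ m : ℝ) *
        (Real.cos (Real.pi * (s - yy m q g j)) / Real.sin (Real.pi * (s - yy m q g j)) *
          Real.sin (n * (2 * Real.pi * (s - yy m q g j))) +
          Real.cos (n * (2 * Real.pi * (s - yy m q g j)))) : ℝ) : ℂ) := by
  unfold PS cc
  have h1 : ∀ k : ℤ, (1 / 2 : ℂ) ^ m * (∑ j ∈ range (2 ^ m),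
      Complex.exp (-(k * (2 * Real.pi * yy m q g j : ℝ) * Complex.I))) *
      Complex.exp (k * (2 * Real.pi * s : ℝ) * Complex.I) =
      ∑ j ∈ range (2 ^ m), (1 / 2 : ℂ) ^ m *
        Complex.exp (k * (2 * Real.pi * (s - yy m q g j) : ℝ) * Complex.I) := by
    intro k
    rw [mul_sum, sum_mul]
    refine sum_congr rfl fun j _ => ?_
    rw [mul_assoc, ← Complex.exp_add]
    congr 2
    push_cast
    ring
  rw [sum_congr rfl fun k _ => h1 k, sum_comm]
  rw [Complex.ofReal_sum]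
  refine sum_congr rfl fun j hj => ?_
  rw [← mul_sum]
  have hj' := mem_range.1 hj
  have h2 : 2 * Real.pi * (s - yy m q g j) / 2 = Real.pi * (s - yy m q g j) := by ring
  have h3 := dirichlet n (2 * Real.pi * (s - yy m q g j)) (by rw [h2]; exact hsin j hj')
  rw [h2] at h3
  have h4 : (1 / 2 : ℂ) ^ m = ((1 / 2 ^ m : ℝ) : ℂ) := by
    push_cast
    rw [one_div_pow]
  rw [h3, h4, ← Complex.ofReal_mul]

/-- `PS cc n (2πs) = 2^-m ∑_j D_n(2π (s - y_j))`, `D_n(u) = cot(u/2) sin(nu) + cos(nu)` (`dirichlet`,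
`sin (π (s - y_j)) ≠ 0`). `sin (n u_j) = Im (e(ns) conj e_j)`, `e(t) = exp(2πi t)`,
`e_j = e(n y_j) = e(freq i tau j)` (`phase_nn`). With `σ_j = -1` for `i < j`, `1` for `j < i`, `0` for
`j = i`: `∑ 2^-m cot sin(n u_j) = sin(2πns) T0 + error`, `T0 = ∑ 2^-m cot σ_j` (`main_term`) and
`|error| ≤ ∑ 2^-m |cot| |e_j - σ_j|` (`phase`, `error_term` with `v_j = |e_j - σ_j| ≤ 2`, `w = 7 ww`);
the cosines contribute at most `1`. -/
theorem pointwise (m q : ℕ) (hm : 2 ≤ m) (g : ℕ → ℕ → ℕ) (hg : ∀ l a, g l a < q) (i b : ℕ)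
    (hi : i < 2 ^ m) (s δ η : ℝ) (hδ : 0 < δ) (hη : 0 < η) (hη1 : η ≤ 1) (hδm : 2 / 2 ^ m ≤ δ)
    (hs0 : δ ≤ s) (hs1 : s ≤ 1 - δ) (hsi : (i : ℝ) / 2 ^ m ≤ s) (hsi' : s < (i + 1) / 2 ^ m)
    (hyη : ∀ j : ℕ, j < 2 ^ m → η / 2 ^ m ≤ |s - yy m q g j|)
    (hT : 0 ≤ ((m : ℝ) - 4) / 6 - 1 / δ) :
    |Real.sin (2 * Real.pi * (nn m q g i b * s))| * (((m : ℝ) - 4) / 6 - 1 / δ) -
      7 * ∑ j ∈ range (2 ^ m), UU (2 ^ m) i j * ww m q g i j - 2 / η - 1 ≤
        ‖PS (cc m q g) (nn m q g i b) (2 * Real.pi * s)‖ := by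
  have hN : (0 : ℝ) < 2 ^ m := by positivity
  have hyc : ∀ j : ℕ, j < 2 ^ m → (j : ℝ) / 2 ^ m ≤ yy m q g j ∧ yy m q g j < (j + 1) / 2 ^ m := by
    intro j _
    have h1 := tau_nonneg m q g j
    have h2 := tau_lt_one m q g hg j
    unfold yy
    constructor
    · exact div_le_div_of_nonneg_right (by linarith) hN.le
    · exact div_lt_div_of_pos_right (by linarith) hN
  have hsin : ∀ j : ℕ, j < 2 ^ m → Real.sin (Real.pi * (s - yy m q g j)) ≠ 0 := by
    intro j hj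
    obtain ⟨h1, h2⟩ := hyc j hj
    have h3 : 0 ≤ yy m q g j := le_trans (by positivity) h1
    have h4 : yy m q g j < 1 := by
      refine lt_of_lt_of_le h2 ?_
      rw [div_le_one hN]
      exact_mod_cast hj
    have h5 : 0 < |s - yy m q g j| := lt_of_lt_of_le (by positivity) (hyη j hj)
    have h6 : s - yy m q g j ≠ 0 := abs_pos.1 h5
    rcases lt_or_gt_of_ne h6 with h7 | h7
    · have h8 : 0 < Real.sin (Real.pi * (yy m q g j - s)) := by
        apply Real.sin_pos_of_pos_of_lt_pi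
        · exact mul_pos Real.pi_pos (by linarith)
        · nlinarith [Real.pi_pos]
      have h9 : Real.sin (Real.pi * (s - yy m q g j)) = -Real.sin (Real.pi * (yy m q g j - s)) := by
        rw [← Real.sin_neg]; congr 1; ring
      rw [h9]
      exact (neg_lt_zero.2 h8).ne
    · have h8 : 0 < Real.sin (Real.pi * (s - yy m q g j)) := by
        apply Real.sin_pos_of_pos_of_lt_pi
        · exact mul_pos Real.pi_pos h7
        · nlinarith [Real.pi_pos]
      exact h8.ne'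
  rw [ptB_PS m q g _ s hsin, Complex.norm_real, Real.norm_eq_abs]
  set n := nn m q g i b with hn
  set ct : ℕ → ℝ := fun j => Real.cos (Real.pi * (s - yy m q g j)) /
    Real.sin (Real.pi * (s - yy m q g j)) with hct
  set sn : ℕ → ℝ := fun j => Real.sin (n * (2 * Real.pi * (s - yy m q g j))) with hsn
  set cs : ℕ → ℝ := fun j => Real.cos (n * (2 * Real.pi * (s - yy m q g j))) with hcs
  set σ : ℕ → ℝ := fun j => if j = i then 0 else if i < j then -1 else 1 with hσ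
  set v : ℕ → ℝ := fun j =>
    ‖Complex.exp (2 * Real.pi * Complex.I * (freq m q g i * tau m q g j : ℝ)) - (σ j : ℂ)‖ with hv
  set A : ℝ := Real.sin (2 * Real.pi * (n * s)) with hA
  have hkey : ∀ j, |sn j - σ j * A| ≤ v j := by
    intro j
    have h1 := ptB_key (n * s) (n * yy m q g j) (σ j)
    rw [phase_nn m q g hg i j b] at h1
    have h2 : 2 * Real.pi * (n * s - n * yy m q g j) = n * (2 * Real.pi * (s - yy m q g j)) := by
      ring
    rw [h2] at h1
    exact h1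
  have hv0 : ∀ j, 0 ≤ v j := fun j => norm_nonneg _
  have hσ1 : ∀ j, |σ j| ≤ 1 := by
    intro j
    simp only [hσ]
    split_ifs <;> simp
  have hv2 : ∀ j, v j ≤ 2 := by
    intro j
    refine (norm_sub_le _ _).trans ?_
    rw [ptB_norm, Complex.norm_real, Real.norm_eq_abs]
    linarith [hσ1 j]
  have hvw : ∀ j : ℕ, j < 2 ^ m → 2 ≤ cd (2 ^ m) i j → v j ≤ 7 * ww m q g i j := by
    intro j hj hcd
    have hij : i ≠ j := by
      rintro rfl
      simp [cd] at hcd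
    have h1 := phase m q g hg i j hi hj hij
    have h2 : ((σ j : ℝ) : ℂ) = (if i < j then -1 else 1) := by
      simp only [hσ, if_neg (Ne.symm hij)]
      split_ifs <;> simp
    simp only [hv]
    rw [h2]
    exact h1
  have hE := error_term m hm (yy m q g) i hi s δ η hδ hη hη1 hδm hs0 hs1 hsi hsi' hyc hyη v hv0
    (fun j => 7 * ww m q g i j) hvw hv2
  have hM := main_term m hm (yy m q g) i hi s δ hδ hs0 hs1 hsi hsi' hyc
  -- main term with σ
  have hT0 : ∑ j ∈ (range (2 ^ m)).erase i, (1 / 2 ^ m : ℝ) * ct j * (if i < j then -1 else 1) =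
      ∑ j ∈ range (2 ^ m), (1 / 2 ^ m : ℝ) * ct j * σ j := by
    rw [← add_sum_erase (range (2 ^ m)) _ (mem_range.2 hi)]
    have h0 : (1 / 2 ^ m : ℝ) * ct i * σ i = 0 := by simp [hσ]
    rw [h0, zero_add]
    refine sum_congr rfl fun j hj => ?_
    have hji : j ≠ i := ne_of_mem_erase hj
    simp only [hσ, if_neg hji]
  set T0 : ℝ := ∑ j ∈ range (2 ^ m), (1 / 2 ^ m : ℝ) * ct j * σ j with hT0def
  have hM' : ((m : ℝ) - 4) / 6 - 1 / δ ≤ T0 := by
    rw [← hT0]
    exact hM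
  have hdecomp : ∑ j ∈ range (2 ^ m), (1 / 2 ^ m : ℝ) * (ct j * sn j + cs j) =
      A * T0 + (∑ j ∈ range (2 ^ m), (1 / 2 ^ m : ℝ) * ct j * (sn j - σ j * A) +
        ∑ j ∈ range (2 ^ m), (1 / 2 ^ m : ℝ) * cs j) := by
    rw [hT0def, mul_sum, ← sum_add_distrib, ← sum_add_distrib]
    refine sum_congr rfl fun j _ => ?_
    ring
  have herr : |∑ j ∈ range (2 ^ m), (1 / 2 ^ m : ℝ) * ct j * (sn j - σ j * A)| ≤
      ∑ j ∈ range (2 ^ m), (1 / 2 ^ m : ℝ) * |ct j| * v j := by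
    refine (abs_sum_le_sum_abs _ _).trans (sum_le_sum fun j _ => ?_)
    rw [abs_mul, abs_mul, abs_of_pos (by positivity : (0 : ℝ) < 1 / 2 ^ m)]
    exact mul_le_mul_of_nonneg_left (hkey j) (by positivity)
  have hcos : |∑ j ∈ range (2 ^ m), (1 / 2 ^ m : ℝ) * cs j| ≤ 1 := by
    refine (abs_sum_le_sum_abs _ _).trans ?_
    calc ∑ j ∈ range (2 ^ m), |(1 / 2 ^ m : ℝ) * cs j|
        ≤ ∑ _j ∈ range (2 ^ m), (1 / 2 ^ m : ℝ) := by
          refine sum_le_sum fun j _ => ?_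
          rw [abs_mul, abs_of_pos (by positivity : (0 : ℝ) < 1 / 2 ^ m)]
          have := Real.abs_cos_le_one (n * (2 * Real.pi * (s - yy m q g j)))
          calc (1 / 2 ^ m : ℝ) * |cs j| ≤ (1 / 2 ^ m : ℝ) * 1 :=
                mul_le_mul_of_nonneg_left this (by positivity)
            _ = _ := mul_one _
      _ = 1 := by
          rw [sum_const, card_range, nsmul_eq_mul]
          push_cast
          field_simp
  have hsumw : ∑ j ∈ range (2 ^ m), UU (2 ^ m) i j * (7 * ww m q g i j) =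
      7 * ∑ j ∈ range (2 ^ m), UU (2 ^ m) i j * ww m q g i j := by
    rw [mul_sum]
    refine sum_congr rfl fun j _ => ?_
    ring
  rw [hsumw] at hE
  have hE' : ∑ j ∈ range (2 ^ m), (1 / 2 ^ m : ℝ) * |ct j| * v j ≤
      7 * ∑ j ∈ range (2 ^ m), UU (2 ^ m) i j * ww m q g i j + 2 / η := hE
  rw [hdecomp]
  have h1 : |A * T0| - |∑ j ∈ range (2 ^ m), (1 / 2 ^ m : ℝ) * ct j * (sn j - σ j * A) +
        ∑ j ∈ range (2 ^ m), (1 / 2 ^ m : ℝ) * cs j| ≤
      |A * T0 + (∑ j ∈ range (2 ^ m), (1 / 2 ^ m : ℝ) * ct j * (sn j - σ j * A) +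
        ∑ j ∈ range (2 ^ m), (1 / 2 ^ m : ℝ) * cs j)| := by
    have := abs_sub_abs_le_abs_sub (A * T0)
      (-(∑ j ∈ range (2 ^ m), (1 / 2 ^ m : ℝ) * ct j * (sn j - σ j * A) +
        ∑ j ∈ range (2 ^ m), (1 / 2 ^ m : ℝ) * cs j))
    rwa [abs_neg, sub_neg_eq_add] at this
  have h2 := abs_add_le (∑ j ∈ range (2 ^ m), (1 / 2 ^ m : ℝ) * ct j * (sn j - σ j * A))
    (∑ j ∈ range (2 ^ m), (1 / 2 ^ m : ℝ) * cs j)
  have h3 : |A| * (((m : ℝ) - 4) / 6 - 1 / δ) ≤ |A * T0| := by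
    rw [abs_mul]
    exact mul_le_mul_of_nonneg_left (hM'.trans (le_abs_self _)) (abs_nonneg _)
  linarith

end P091
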