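import Vale.Agent.Lib.P091.Defs

/-! # P091 module SetsA: measure of the set where the sine is small -/

open Finset MeasureTheory

namespace P091

/-- `|sin (2πKs)| ≥ 4 dist(Ks, (1/2) ℤ)`, so the set is contained in the union over
`p = 0, …, 2K` of the intervals `|s - p/(2K)| < κ/(4K)`, intersected with `[0,1]` (the two end
intervals count half); total length `≤ 2K · κ/(2K) = κ`. -/
theorem meas_sin (K : ℕ) (hK : 1 ≤ K) (κ : ℝ) (hκ : 0 < κ) :
    volume {s : ℝ | s ∈ Set.Icc 0 1 ∧ |Real.sin (2 * Real.pi * (K * s))| < κ} ≤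
      ENNReal.ofReal (2 * κ) := by
  have hK' : (1 : ℝ) ≤ K := by exact_mod_cast hK
  have hsub : {s : ℝ | s ∈ Set.Icc 0 1 ∧ |Real.sin (2 * Real.pi * (K * s))| < κ} ⊆
      ⋃ p ∈ range (2 * K + 1),
        Set.Ioo ((p : ℝ) / (2 * K) - κ / (4 * K)) ((p : ℝ) / (2 * K) + κ / (4 * K)) := by
    rintro s ⟨⟨h0, h1⟩, hs⟩
    set t : ℝ := 2 * K * s with ht
    have ht0 : 0 ≤ t := by positivity
    have ht1 : t ≤ 2 * K := by
      rw [ht]
      nlinarith
    have hr := abs_sub_round t
    have hr0 : 0 ≤ round t := by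
      by_contra hc
      have h2 : round t ≤ -1 := by omega
      have h3 : (round t : ℝ) ≤ -1 := by exact_mod_cast h2
      have := (abs_le.1 hr).2
      linarith
    have hr1 : round t ≤ 2 * K := by
      by_contra hc
      have h2 : 2 * (K : ℤ) + 1 ≤ round t := by omega
      have h3 : (2 * K + 1 : ℝ) ≤ round t := by exact_mod_cast h2
      have := (abs_le.1 hr).1
      linarith
    obtain ⟨p, hp⟩ := Int.eq_ofNat_of_zero_le hr0
    have hp' : (round t : ℝ) = p := by rw [hp]; simp
    rw [hp'] at hr
    have hpK : p < 2 * K + 1 := by omega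
    have hsin : |Real.sin (Real.pi * (t - p))| < κ := by
      have e1 : Real.pi * (t - p) = 2 * Real.pi * (K * s) - (p : ℕ) * Real.pi := by
        rw [ht]
        ring
      rw [e1, Real.sin_sub_nat_mul_pi, abs_mul, abs_pow, abs_neg, abs_one, one_pow, one_mul]
      exact hs
    have hpi := Real.pi_pos
    have hle : |Real.pi * (t - p)| ≤ Real.pi / 2 := by
      rw [abs_mul, abs_of_pos hpi]
      nlinarith
    have h4 := Real.mul_abs_le_abs_sin hle
    rw [abs_mul, abs_of_pos hpi] at h4
    have h5 : 2 / Real.pi * (Real.pi * |t - p|) = 2 * |t - p| := by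
      field_simp
    rw [h5] at h4
    have h6 : |t - p| < κ / 2 := by linarith
    have h7 := abs_lt.1 h6
    have h8 : s = t / (2 * K) := by
      rw [ht]
      field_simp
    have h9 : κ / (4 * K) = κ / 2 / (2 * K) := by
      field_simp
      ring
    simp only [Set.mem_iUnion, Finset.mem_range, Set.mem_Ioo, exists_prop]
    refine ⟨p, hpK, ?_, ?_⟩
    · rw [h8, h9, ← sub_div]
      exact div_lt_div_of_pos_right (by linarith [h7.1]) (by positivity)
    · rw [h8, h9, ← add_div]
      exact div_lt_div_of_pos_right (by linarith [h7.2]) (by positivity)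
  refine (measure_mono hsub).trans ((measure_biUnion_finset_le _ _).trans ?_)
  have hvol : ∀ p ∈ range (2 * K + 1),
      volume (Set.Ioo ((p : ℝ) / (2 * K) - κ / (4 * K)) ((p : ℝ) / (2 * K) + κ / (4 * K))) =
        ENNReal.ofReal (κ / (2 * K)) := by
    intro p _
    rw [Real.volume_Ioo]
    congr 1
    field_simp
    ring
  rw [sum_congr rfl hvol, sum_const, card_range, nsmul_eq_mul,
    ← ENNReal.ofReal_natCast, ← ENNReal.ofReal_mul (by positivity)]
  refine ENNReal.ofReal_le_ofReal ?_
  push_cast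
  rw [mul_div_assoc', div_le_iff₀ (by positivity)]
  nlinarith

end P091
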