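import Vale.Agent.Lib.P091.Defs

/-! # P091 module SetsB: measures of the exceptional sets -/

open Finset MeasureTheory

namespace P091

theorem meas_near (N : ℕ) (hN : 1 ≤ N) (y : ℕ → ℝ) (η : ℝ) (hη : 0 < η) :
    volume {s : ℝ | ∃ j < N, |s - y j| < η / N} ≤ ENNReal.ofReal (2 * η) := by
  have hN0 : (0 : ℝ) < N := by exact_mod_cast hN
  have hsub : {s : ℝ | ∃ j < N, |s - y j| < η / N} ⊆
      ⋃ j ∈ range N, Metric.ball (y j) (η / N) := by
    rintro s ⟨j, hj, h⟩
    simp only [Set.mem_iUnion, Metric.mem_ball, mem_range]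
    exact ⟨j, hj, by rw [Real.dist_eq]; exact h⟩
  refine (measure_mono hsub).trans ?_
  refine (measure_biUnion_finset_le _ _).trans ?_
  simp only [Real.volume_ball]
  rw [Finset.sum_const, card_range, nsmul_eq_mul]
  rw [← ENNReal.ofReal_natCast N, ← ENNReal.ofReal_mul hN0.le]
  apply ENNReal.ofReal_le_ofReal
  apply le_of_eq
  field_simp

/-- Markov: at most `b N / a` of the cells are bad. -/
theorem meas_cells (N : ℕ) (hN : 1 ≤ N) (E : ℕ → ℝ) (hE : ∀ i, 0 ≤ E i) (a b : ℝ) (ha : 0 < a)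
    (h : ∑ i ∈ range N, E i ≤ b * N) :
    volume {s : ℝ | ∃ i < N, (i : ℝ) / N ≤ s ∧ s < (i + 1) / N ∧ a < E i} ≤
      ENNReal.ofReal (b / a) := by
  classical
  have hN0 : (0 : ℝ) < N := by exact_mod_cast hN
  set B := (range N).filter (fun i => a < E i) with hB
  have hsub : {s : ℝ | ∃ i < N, (i : ℝ) / N ≤ s ∧ s < (i + 1) / N ∧ a < E i} ⊆
      ⋃ i ∈ B, Set.Ico ((i : ℝ) / N) ((i + 1) / N) := by
    rintro s ⟨i, hi, h1, h2, h3⟩
    simp only [Set.mem_iUnion, Set.mem_Ico]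
    exact ⟨i, by simp [hB, hi, h3], h1, h2⟩
  refine (measure_mono hsub).trans ?_
  refine (measure_biUnion_finset_le _ _).trans ?_
  have hvol : ∀ i : ℕ, volume (Set.Ico ((i : ℝ) / N) ((i + 1) / N)) = ENNReal.ofReal (1 / N) := by
    intro i
    rw [Real.volume_Ico]
    congr 1
    ring
  simp only [hvol]
  rw [Finset.sum_const, nsmul_eq_mul, ← ENNReal.ofReal_natCast B.card,
    ← ENNReal.ofReal_mul (by positivity)]
  apply ENNReal.ofReal_le_ofReal
  have hcard : (B.card : ℝ) * a ≤ b * N := by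
    refine le_trans ?_ h
    calc (B.card : ℝ) * a = ∑ i ∈ B, a := by rw [Finset.sum_const, nsmul_eq_mul]
      _ ≤ ∑ i ∈ B, E i := Finset.sum_le_sum (fun i hi => (by
          have := (Finset.mem_filter.1 hi).2
          exact this.le))
      _ ≤ ∑ i ∈ range N, E i :=
          Finset.sum_le_sum_of_subset_of_nonneg (Finset.filter_subset _ _) (fun i _ _ => hE i)
  rw [mul_one_div, div_le_div_iff₀ hN0 ha]
  exact hcard

end P091
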