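import Vale.Agent.Lib.P091.HashD
import Vale.Agent.Lib.P091.KerB
import Vale.Agent.Lib.P091.FejB
import Vale.Agent.Lib.P091.PtB
import Vale.Agent.Lib.P091.SetsA
import Vale.Agent.Lib.P091.SetsB

/-! # P091 module Block: the building blocks -/

open Finset MeasureTheory

namespace P091

theorem UU_nonneg (N i j : ℕ) : 0 ≤ UU N i j := by
  unfold UU
  split_ifs with h
  · have : (2 : ℝ) ≤ (cd N i j : ℝ) := by exact_mod_cast h
    have : (0 : ℝ) < (cd N i j : ℝ) - 1 := by linarith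
    positivity
  · exact le_rfl

theorem UU_self (N i : ℕ) : UU N i i = 0 := by
  unfold UU cd
  simp

theorem eps_nonneg (m q : ℕ) (g : ℕ → ℕ → ℕ) (i j : ℕ) : 0 ≤ eps m q g i j := by
  unfold eps
  refine sum_nonneg fun l _ => sum_nonneg fun l' _ => ?_
  split_ifs <;> positivity

theorem ww_nonneg (m q : ℕ) (g : ℕ → ℕ → ℕ) (i j : ℕ) : 0 ≤ ww m q g i j := by
  unfold ww
  have := eps_nonneg m q g i j
  positivity

/-- the pointwise statement -/
theorem good_point (e : ℝ) (he : 0 < e) (he1 : e ≤ 1) (Q m : ℕ) (hm : 2 ≤ m)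
    (hm1 : 2 / 2 ^ m ≤ e / 16) (hT : 0 ≤ ((m : ℝ) - 4) / 6 - 1 / (e / 16))
    (hm2 : (2 / 3) * (e / 32) + (e / 32) / (e / 16) + 2 / (e / 16) + 3 ≤ (e / 32) * m / 12)
    (g : ℕ → ℕ → ℕ) (hg : ∀ l a, g l a < Q * m) (i : ℕ) (hi : i < 2 ^ m) (s : ℝ)
    (hs0 : e / 16 ≤ s) (hs1 : s ≤ 1 - e / 16) (hsi : (i : ℝ) / 2 ^ m ≤ s)
    (hsi' : s < (i + 1) / 2 ^ m)
    (hyη : ∀ j : ℕ, j < 2 ^ m → (e / 16) / 2 ^ m ≤ |s - yy m (Q * m) g j|)
    (hE : ∑ j ∈ range (2 ^ m), UU (2 ^ m) i j * ww m (Q * m) g i j ≤ (e / 32) * m / 168)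
    (hsin : e / 16 ≤ |Real.sin (2 * Real.pi * (2 ^ (m + m * (Q * m)) * s))|) :
    ∃ n : ℕ, 1 ≤ n ∧ n ≤ 2 ^ (2 * (m + m * (Q * m) + 1)) ∧
      (e / 32) / 24 * m ≤
        ‖PS (fj m (Q * m) g (2 ^ (2 * (m + m * (Q * m) + 1)))) n (2 * Real.pi * s)‖ := by
  obtain ⟨b, hb, hb2⟩ := exists_b m (Q * m) g i s
  have hsn : e / 32 ≤ |Real.sin (2 * Real.pi * (nn m (Q * m) g i b * s))| := by linarith
  have hn1 : 1 ≤ nn m (Q * m) g i b := by
    by_contra h0
    have : nn m (Q * m) g i b = 0 := by omega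
    rw [this] at hsn
    simp at hsn
    linarith
  have hf := freq_lt m (Q * m) g hg i
  have hn2 : nn m (Q * m) g i b ≤ 2 ^ (m + m * (Q * m) + 1) := by
    unfold nn
    have : freq m (Q * m) g i + b * 2 ^ (m * (Q * m)) ≤ 2 * 2 ^ (m * (Q * m)) := by
      have : b * 2 ^ (m * (Q * m)) ≤ 1 * 2 ^ (m * (Q * m)) := Nat.mul_le_mul_right _ hb
      omega
    calc 2 ^ m * (freq m (Q * m) g i + b * 2 ^ (m * (Q * m)))
        ≤ 2 ^ m * (2 * 2 ^ (m * (Q * m))) := Nat.mul_le_mul_left _ this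
      _ = 2 ^ (m + m * (Q * m) + 1) := by rw [pow_succ, pow_add]; ring
  have hn3 : nn m (Q * m) g i b ^ 2 ≤ 2 ^ (2 * (m + m * (Q * m) + 1)) := by
    calc nn m (Q * m) g i b ^ 2 ≤ (2 ^ (m + m * (Q * m) + 1)) ^ 2 := Nat.pow_le_pow_left hn2 2
      _ = 2 ^ (2 * (m + m * (Q * m) + 1)) := by rw [← pow_mul]; ring_nf
  refine ⟨nn m (Q * m) g i b, hn1, ?_, ?_⟩
  · calc nn m (Q * m) g i b ≤ nn m (Q * m) g i b ^ 2 := by nlinarith
      _ ≤ _ := hn3
  · have h1 := pointwise m (Q * m) hm g hg i b hi s (e / 16) (e / 16) (by linarith) (by linarith)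
      (by linarith) hm1 hs0 hs1 hsi hsi' hyη hT
    have h2 := fj_compare m (Q * m) g _ _ hn1 hn3 (2 * Real.pi * s)
    have h3 : ‖PS (cc m (Q * m) g) (nn m (Q * m) g i b) (2 * Real.pi * s)‖ - 2 ≤
        ‖PS (fj m (Q * m) g (2 ^ (2 * (m + m * (Q * m) + 1)))) (nn m (Q * m) g i b)
          (2 * Real.pi * s)‖ := by
      have h4 := norm_sub_norm_le (PS (cc m (Q * m) g) (nn m (Q * m) g i b) (2 * Real.pi * s))
        (PS (fj m (Q * m) g (2 ^ (2 * (m + m * (Q * m) + 1)))) (nn m (Q * m) g i b)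
          (2 * Real.pi * s))
      rw [norm_sub_rev] at h4
      linarith
    have h5 : (e / 32) * (((m : ℝ) - 4) / 6 - 1 / (e / 16)) ≤
        |Real.sin (2 * Real.pi * (nn m (Q * m) g i b * s))| *
          (((m : ℝ) - 4) / 6 - 1 / (e / 16)) := mul_le_mul_of_nonneg_right hsn hT
    have h6 : (e / 32) * (((m : ℝ) - 4) / 6 - 1 / (e / 16)) =
      (e / 32) * m / 6 - (2 / 3) * (e / 32) - (e / 32) / (e / 16) := by ring
    linarith

theorem exists_large (e : ℝ) (he : 0 < e) : ∃ m0 : ℕ, ∀ m : ℕ, m0 ≤ m → 2 ≤ m ∧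
    2 / 2 ^ m ≤ e / 16 ∧ 0 ≤ ((m : ℝ) - 4) / 6 - 1 / (e / 16) ∧
    (2 / 3) * (e / 32) + (e / 32) / (e / 16) + 2 / (e / 16) + 3 ≤ (e / 32) * m / 12 := by
  set R : ℝ := 2 + 32 / e + (4 + 6 * (1 / (e / 16))) +
    ((2 / 3) * (e / 32) + (e / 32) / (e / 16) + 2 / (e / 16) + 3) * 12 / (e / 32) with hR
  refine ⟨⌈R⌉₊, fun m hm => ?_⟩
  have h1 : R ≤ m := le_trans (Nat.le_ceil R) (by exact_mod_cast hm)
  have hp1 : 0 < 32 / e := by positivity
  have hp2 : 0 < 1 / (e / 16) := by positivity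
  have hp3 : 0 < ((2 / 3) * (e / 32) + (e / 32) / (e / 16) + 2 / (e / 16) + 3) * 12 / (e / 32) := by
    positivity
  have h2 : (2 : ℝ) ≤ m := by linarith
  refine ⟨by exact_mod_cast h2, ?_, by linarith, ?_⟩
  · have h3 : (m : ℝ) ≤ 2 ^ m := by
      have : m ≤ 2 ^ m := Nat.lt_two_pow_self.le
      exact_mod_cast this
    have h4 : 32 / e ≤ 2 ^ m := by linarith
    rw [div_le_iff₀ (by positivity)]
    have h5 : 32 / e * (e / 16) = 2 := by field_simp; norm_num
    calc (2 : ℝ) = 32 / e * (e / 16) := h5.symm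
      _ ≤ 2 ^ m * (e / 16) := mul_le_mul_of_nonneg_right h4 (by positivity)
      _ = e / 16 * 2 ^ m := by ring
  · have h6 : ((2 / 3) * (e / 32) + (e / 32) / (e / 16) + 2 / (e / 16) + 3) * 12 / (e / 32) ≤ m := by
      linarith
    rw [div_le_iff₀ (by positivity)] at h6
    linarith

/-- For every `ε` there are `c > 0` and `C` such that for all large `m` there is a nonnegative
trigonometric polynomial of mean one, bounded by `2 ^ (C m²)`, some partial sum of which is at least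
`c m` in absolute value outside a set of measure `ε`. -/
theorem block (ε : ℝ) (hε : 0 < ε) : ∃ c : ℝ, 0 < c ∧ ∃ C m0 : ℕ, ∀ m : ℕ, m0 ≤ m →
    ∃ (M : ℕ) (α : ℤ → ℂ), (∀ k : ℤ, (M : ℤ) < |k| → α k = 0) ∧ α 0 = 1 ∧
      (∀ x, (PS α M x).im = 0 ∧ 0 ≤ (PS α M x).re ∧ (PS α M x).re ≤ 2 ^ (C * m ^ 2)) ∧
      volume {x : ℝ | x ∈ Set.Icc 0 (2 * Real.pi) ∧ ∀ n : ℕ, 1 ≤ n → n ≤ M →
        ‖PS α n x‖ < c * m} ≤ ENNReal.ofReal ε := by
  have hpi := Real.pi_pos
  set e : ℝ := min (ε / (2 * Real.pi)) 1 with he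
  have he0 : 0 < e := lt_min (by positivity) one_pos
  have he1 : e ≤ 1 := min_le_right _ _
  have heε : 2 * Real.pi * e ≤ ε := by
    have : e ≤ ε / (2 * Real.pi) := min_le_left _ _
    rw [le_div_iff₀ (by positivity)] at this
    linarith
  obtain ⟨m0, hm0⟩ := exists_large e he0
  set Q : ℕ := ⌈2016 * 16 / ((e / 32) * e)⌉₊ with hQ
  have hQ1 : 2016 * 16 / ((e / 32) * e) ≤ Q := Nat.le_ceil _
  have hQ0 : 0 < Q := Nat.ceil_pos.2 (by positivity)
  refine ⟨(e / 32) / 24, by positivity, 2 * Q + 4, max m0 1, fun m hm => ?_⟩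
  obtain ⟨hm2, hm3, hm4, hm5⟩ := hm0 m (le_trans (le_max_left _ _) hm)
  have hmpos : (0 : ℝ) < m := by
    have : 0 < m := by omega
    exact_mod_cast this
  have hq0 : 0 < Q * m := Nat.mul_pos hQ0 (by omega)
  obtain ⟨g, hg, hgs⟩ := exists_hash m (Q * m) hq0 (UU (2 ^ m)) (fun i j => UU_nonneg _ _ _)
    (fun i => UU_self _ _)
  set q := Q * m with hq
  set M : ℕ := 2 ^ (2 * (m + m * q + 1)) with hM
  have hM1 : 1 ≤ M := Nat.one_le_two_pow
  refine ⟨M, fj m q g M, ?_, fj_zero m q g M hM1, ?_, ?_⟩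
  · intro k hk
    unfold fj
    rw [if_neg (by omega)]
  · intro x
    obtain ⟨h1, h2, h3⟩ := fj_real m q g M hM1 x
    refine ⟨h1, h2, h3.trans ?_⟩
    rw [hM]
    push_cast
    refine pow_le_pow_right₀ (by norm_num) ?_
    rw [hq]
    have : 1 ≤ m := by omega
    nlinarith [Nat.mul_le_mul this this]
  · -- measure
    set E : ℕ → ℝ := fun i => ∑ j ∈ range (2 ^ m), UU (2 ^ m) i j * ww m q g i j with hE
    have hEn : ∀ i, 0 ≤ E i := fun i => sum_nonneg fun j _ =>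
      mul_nonneg (UU_nonneg _ _ _) (ww_nonneg _ _ _ _ _)
    have hEs : ∑ i ∈ range (2 ^ m), E i ≤ (12 * m ^ 2 / q : ℝ) * ((2 ^ m : ℕ) : ℝ) := by
      refine hgs.trans ?_
      have h1 : ∑ i ∈ range (2 ^ m), ∑ j ∈ range (2 ^ m), UU (2 ^ m) i j ≤
          ∑ i ∈ range (2 ^ m), (4 * m : ℝ) :=
        sum_le_sum fun i hi => sum_UU m i (by omega) (mem_range.1 hi)
      rw [sum_const, card_range, nsmul_eq_mul] at h1
      calc (3 * m / q : ℝ) * ∑ i ∈ range (2 ^ m), ∑ j ∈ range (2 ^ m), UU (2 ^ m) i j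
          ≤ (3 * m / q : ℝ) * (((2 ^ m : ℕ) : ℝ) * (4 * m)) :=
            mul_le_mul_of_nonneg_left h1 (by positivity)
        _ = _ := by ring
    have hpow : ((2 ^ m : ℕ) : ℝ) = 2 ^ m := by push_cast; rfl
    have h4 := meas_cells (2 ^ m) Nat.one_le_two_pow E hEn ((e / 32) * m / 168)
      (12 * m ^ 2 / q) (by positivity) hEs
    have h3 := meas_sin (2 ^ (m + m * q)) Nat.one_le_two_pow (e / 16) (by positivity)
    have h2 := meas_near (2 ^ m) Nat.one_le_two_pow (yy m q g) (e / 16) (by positivity)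
    have hba : (12 * m ^ 2 / q : ℝ) / ((e / 32) * m / 168) ≤ e / 16 := by
      rw [div_le_iff₀ (by positivity), hq]
      push_cast
      rw [div_le_iff₀ (by positivity)]
      have : 2016 * 16 ≤ (Q : ℝ) * ((e / 32) * e) := by
        rwa [div_le_iff₀ (by positivity)] at hQ1
      have h5 : 0 < (m : ℝ) ^ 2 := by positivity
      nlinarith [mul_le_mul_of_nonneg_left this h5.le]
    set B : Set ℝ := (Set.Icc 0 (e / 16) ∪ Set.Icc (1 - e / 16) 1) ∪
      ({s : ℝ | ∃ j < 2 ^ m, |s - yy m q g j| < e / 16 / ((2 ^ m : ℕ) : ℝ)} ∪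
      ({s : ℝ | s ∈ Set.Icc 0 1 ∧
        |Real.sin (2 * Real.pi * (((2 ^ (m + m * q) : ℕ) : ℝ) * s))| < e / 16} ∪
      {s : ℝ | ∃ i < (2 ^ m : ℕ), (i : ℝ) / ((2 ^ m : ℕ) : ℝ) ≤ s ∧ s < (i + 1) / ((2 ^ m : ℕ) : ℝ) ∧
        (e / 32) * m / 168 < E i})) with hB
    have hvolB : volume B ≤ ENNReal.ofReal e := by
      have hIcc : volume (Set.Icc 0 (e / 16) ∪ Set.Icc (1 - e / 16) 1) ≤
          ENNReal.ofReal (e / 8) := by
        refine (measure_union_le _ _).trans ?_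
        rw [Real.volume_Icc, Real.volume_Icc, ← ENNReal.ofReal_add (by linarith) (by linarith)]
        exact ENNReal.ofReal_le_ofReal (by linarith)
      calc volume B ≤ ENNReal.ofReal (e / 8) + (ENNReal.ofReal (2 * (e / 16)) +
            (ENNReal.ofReal (2 * (e / 16)) + ENNReal.ofReal (e / 16))) := by
            refine (measure_union_le _ _).trans (add_le_add hIcc ?_)
            refine (measure_union_le _ _).trans (add_le_add h2 ?_)
            exact (measure_union_le _ _).trans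
              (add_le_add h3 (h4.trans (ENNReal.ofReal_le_ofReal hba)))
        _ ≤ ENNReal.ofReal e := by
            rw [← ENNReal.ofReal_add (by positivity) (by positivity),
              ← ENNReal.ofReal_add (by positivity) (by positivity),
              ← ENNReal.ofReal_add (by positivity) (by positivity)]
            exact ENNReal.ofReal_le_ofReal (by linarith)
    have hsub : {x : ℝ | x ∈ Set.Icc 0 (2 * Real.pi) ∧ ∀ n : ℕ, 1 ≤ n → n ≤ M →
        ‖PS (fj m q g M) n x‖ < (e / 32) / 24 * m} ⊆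
        (fun x => (2 * Real.pi)⁻¹ * x) ⁻¹' B := by
      rintro x ⟨hx, hxn⟩
      by_contra hxB
      set s : ℝ := (2 * Real.pi)⁻¹ * x with hs
      have hxs : x = 2 * Real.pi * s := by rw [hs]; field_simp
      have hsB : s ∉ B := hxB
      have hs01 : s ∈ Set.Icc (0 : ℝ) 1 := by
        constructor
        · rw [hs]; exact mul_nonneg (by positivity) hx.1
        · rw [hs, inv_mul_le_iff₀ (by positivity)]; linarith [hx.2]
      simp only [hB, Set.mem_union, not_or] at hsB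
      obtain ⟨⟨h5, h6⟩, h7, h8, h9⟩ := hsB
      have hs0 : e / 16 ≤ s := by
        by_contra hc
        exact h5 ⟨hs01.1, by linarith⟩
      have hs1 : s ≤ 1 - e / 16 := by
        by_contra hc
        exact h6 ⟨by linarith, hs01.2⟩
      have h2m : (0 : ℝ) < 2 ^ m := by positivity
      set i : ℕ := ⌊s * 2 ^ m⌋₊ with hi
      have hi1 : (i : ℝ) ≤ s * 2 ^ m := Nat.floor_le (mul_nonneg hs01.1 h2m.le)
      have hi2 : s * 2 ^ m < i + 1 := Nat.lt_floor_add_one _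
      have hsi : (i : ℝ) / 2 ^ m ≤ s := by rwa [div_le_iff₀ h2m]
      have hsi' : s < (i + 1) / 2 ^ m := by rwa [lt_div_iff₀ h2m]
      have hilt : i < 2 ^ m := by
        have h10 : (i : ℝ) < 2 ^ m := by
          have : s * 2 ^ m < 1 * 2 ^ m := mul_lt_mul_of_pos_right (by linarith) h2m
          linarith
        exact_mod_cast h10
      have hyη : ∀ j : ℕ, j < 2 ^ m → (e / 16) / 2 ^ m ≤ |s - yy m q g j| := by
        intro j hj
        by_contra hc
        exact h7 ⟨j, hj, by rw [hpow]; linarith⟩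
      have hEi : E i ≤ (e / 32) * m / 168 := by
        by_contra hc
        exact h9 ⟨i, hilt, by rw [hpow]; exact hsi, by rw [hpow]; exact hsi', by linarith⟩
      have hsin : e / 16 ≤ |Real.sin (2 * Real.pi * (2 ^ (m + m * q) * s))| := by
        by_contra hc
        refine h8 ⟨hs01, ?_⟩
        push_cast
        linarith
      obtain ⟨n, hn1, hn2, hn3⟩ := good_point e he0 he1 Q m hm2 hm3 hm4 hm5 g hg i hilt s hs0 hs1
        hsi hsi' hyη hEi hsin
      have := hxn n hn1 hn2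
      rw [hxs] at this
      exact absurd this (not_lt.2 hn3)
    calc volume {x : ℝ | x ∈ Set.Icc 0 (2 * Real.pi) ∧ ∀ n : ℕ, 1 ≤ n → n ≤ M →
        ‖PS (fj m q g M) n x‖ < (e / 32) / 24 * m}
        ≤ volume ((fun x => (2 * Real.pi)⁻¹ * x) ⁻¹' B) := measure_mono hsub
      _ = ENNReal.ofReal |((2 * Real.pi)⁻¹)⁻¹| * volume B :=
          Real.volume_preimage_mul_left (by positivity) B
      _ ≤ ENNReal.ofReal (2 * Real.pi) * ENNReal.ofReal e := by
          rw [inv_inv, abs_of_pos (by positivity)]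
          gcongr
      _ = ENNReal.ofReal (2 * Real.pi * e) := (ENNReal.ofReal_mul (by positivity)).symm
      _ ≤ ENNReal.ofReal ε := ENNReal.ofReal_le_ofReal heε

end P091
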