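import Vale.Agent.Lib.P091.Defs

/-! # P091 module GlueA: dilated trigonometric polynomials -/

open Finset MeasureTheory

namespace P091

/-- a real trigonometric polynomial, dilated -/
noncomputable def FF (α : ℤ → ℂ) (M K : ℕ) (x : ℝ) : ℝ := (PS α M (K * x)).re

theorem continuous_FF (α : ℤ → ℂ) (M K : ℕ) : Continuous (FF α M K) := by
  unfold FF PS
  refine Complex.continuous_re.comp ?_
  refine continuous_finsetSum _ fun k _ => ?_
  fun_prop

theorem FF_periodic (α : ℤ → ℂ) (M K : ℕ) (x : ℝ) : FF α M K (x + 2 * Real.pi) = FF α M K x := by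
  unfold FF PS
  congr 1
  refine Finset.sum_congr rfl fun k _ => ?_
  congr 1
  rw [Complex.exp_eq_exp_iff_exists_int]
  refine ⟨k * K, ?_⟩
  push_cast
  ring

theorem glueA_int_exp (n : ℤ) :
    ∫ x in (0 : ℝ)..(2 * Real.pi), Complex.exp ((n : ℂ) * x * Complex.I) =
      if n = 0 then ((2 * Real.pi : ℝ) : ℂ) else 0 := by
  split_ifs with h
  · subst h
    simp
  · have hn : (n : ℂ) * Complex.I ≠ 0 :=
      mul_ne_zero (Int.cast_ne_zero.mpr h) Complex.I_ne_zero
    have e : ∀ x : ℝ, Complex.exp ((n : ℂ) * x * Complex.I) =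
        Complex.exp (((n : ℂ) * Complex.I) * x) := fun x => by
      congr 1
      ring
    simp_rw [e]
    rw [integral_exp_mul_complex hn]
    have e1 : Complex.exp ((n : ℂ) * Complex.I * ((2 * Real.pi : ℝ) : ℂ)) = 1 := by
      rw [Complex.exp_eq_one_iff]
      refine ⟨n, ?_⟩
      push_cast
      ring
    rw [e1]
    simp

/-- Fourier coefficients of a dilated trigonometric polynomial with real values -/
theorem fc_FF (α : ℤ → ℂ) (M K : ℕ) (hK : 1 ≤ K) (hα : ∀ k : ℤ, (M : ℤ) < |k| → α k = 0)
    (hr : ∀ x, (PS α M x).im = 0) (k : ℤ) :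
    fc (FF α M K) k = if (K : ℤ) ∣ k then α (k / K) else 0 := by
  have hpi : ((2 * Real.pi : ℝ) : ℂ) ≠ 0 := by
    rw [Complex.ofReal_ne_zero]
    positivity
  have hF : ∀ x : ℝ, (FF α M K x : ℂ) = PS α M (K * x) := fun x => by
    apply Complex.ext
    · simp [FF]
    · rw [hr]
      simp
  have h1 : ∀ x : ℝ, (FF α M K x : ℂ) * Complex.exp (-(k * x * Complex.I)) =
      ∑ j ∈ Icc (-(M : ℤ)) M, α j * Complex.exp (((j * K - k : ℤ) : ℂ) * x * Complex.I) := by
    intro x
    rw [hF, PS, Finset.sum_mul]
    refine Finset.sum_congr rfl fun j _ => ?_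
    rw [mul_assoc, ← Complex.exp_add]
    congr 2
    push_cast
    ring
  unfold fc
  simp_rw [h1]
  rw [intervalIntegral.integral_finsetSum]
  swap
  · intro j _
    apply Continuous.intervalIntegrable
    fun_prop
  simp_rw [intervalIntegral.integral_const_mul, glueA_int_exp]
  have hK0 : (K : ℤ) ≠ 0 := by
    have : (0 : ℤ) < K := by exact_mod_cast hK
    exact this.ne'
  split_ifs with hd
  · obtain ⟨t, rfl⟩ := hd
    rw [Int.mul_ediv_cancel_left _ hK0]
    by_cases ht : t ∈ Icc (-(M : ℤ)) M
    · rw [Finset.sum_eq_single_of_mem t ht]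
      · rw [if_pos (by ring)]
        push_cast
        field_simp
      · intro j _ hj
        rw [if_neg, mul_zero]
        intro h0
        apply hj
        have : (j - t) * K = 0 := by linarith
        rcases mul_eq_zero.mp this with h | h
        · linarith
        · exact absurd h hK0
    · have hz : α t = 0 := by
        apply hα
        by_contra hc
        apply ht
        rw [Finset.mem_Icc]
        exact abs_le.mp (not_lt.mp hc)
      rw [hz, Finset.sum_eq_zero, mul_zero]
      intro j hj
      rw [if_neg, mul_zero]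
      intro h0
      have : (j - t) * K = 0 := by linarith
      rcases mul_eq_zero.mp this with h | h
      · have : j = t := by linarith
        exact ht (this ▸ hj)
      · exact absurd h hK0
  · rw [Finset.sum_eq_zero, mul_zero]
    intro j _
    rw [if_neg, mul_zero]
    intro h0
    exact hd ⟨j, by linarith⟩

theorem PS_of_le (α : ℤ → ℂ) (M n : ℕ) (hα : ∀ k : ℤ, (M : ℤ) < |k| → α k = 0) (h : M ≤ n) (x : ℝ) :
    PS α n x = PS α M x := by
  unfold PS
  symm
  refine Finset.sum_subset ?_ ?_
  · intro k hk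
    rw [Finset.mem_Icc] at hk ⊢
    have : (M : ℤ) ≤ n := by exact_mod_cast h
    exact ⟨by linarith [hk.1], by linarith [hk.2]⟩
  · intro k _ hk
    rw [hα, zero_mul]
    by_contra hc
    apply hk
    rw [Finset.mem_Icc]
    exact abs_le.mp (not_lt.mp hc)

theorem PS_zero (α : ℤ → ℂ) (x : ℝ) : PS α 0 x = α 0 := by
  unfold PS
  simp

end P091
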