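import Vale.Agent.Lib.P091.GlueA2

/-! # P091 module GlueB: infinite sums of nonnegative continuous functions -/

open Finset MeasureTheory

namespace P091

private theorem tsum_eq_toReal (F : ℕ → ℝ → ℝ) (h0 : ∀ l x, 0 ≤ F l x) (x : ℝ) :
    ∑' l, F l x = (∑' l, ENNReal.ofReal (F l x)).toReal := by
  rw [ENNReal.tsum_toReal_eq (fun _ => ENNReal.ofReal_ne_top)]
  refine tsum_congr fun l => ?_
  rw [ENNReal.toReal_ofReal (h0 l x)]

private theorem int_term (F : ℕ → ℝ → ℝ) (hF : ∀ l, Continuous (F l)) (l : ℕ) :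
    Integrable (F l) (volume.restrict (Set.Ioc 0 (2 * Real.pi))) :=
  ((hF l).continuousOn.integrableOn_Icc).mono_set Set.Ioc_subset_Icc_self

private theorem lint_lt_top (F : ℕ → ℝ → ℝ) (hF : ∀ l, Continuous (F l))
    (h0 : ∀ l x, 0 ≤ F l x) (hs : Summable fun l => ∫ x in (0 : ℝ)..(2 * Real.pi), F l x) :
    ∫⁻ x in Set.Ioc 0 (2 * Real.pi), ∑' l, ENNReal.ofReal (F l x) ≠ ⊤ := by
  rw [lintegral_tsum (fun l => (hF l).measurable.ennreal_ofReal.aemeasurable)]
  have h1 : ∀ l, ∫⁻ x in Set.Ioc 0 (2 * Real.pi), ENNReal.ofReal (F l x)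
      = ENNReal.ofReal (∫ x in (0 : ℝ)..(2 * Real.pi), F l x) := by
    intro l
    rw [intervalIntegral.integral_of_le (by positivity)]
    exact (ofReal_integral_eq_lintegral_ofReal (int_term F hF l)
      (Filter.Eventually.of_forall (h0 l))).symm
  simp_rw [h1]
  exact hs.tsum_ofReal_ne_top

/-- Sums of nonnegative functions with summable integrals (work with `∑' ENNReal.ofReal (F l x)` and its
`toReal`; `hasSum_integral_of_summable_integral_norm` for the Fourier coefficients). -/
theorem sum_facts (F : ℕ → ℝ → ℝ) (hF : ∀ l, Continuous (F l)) (h0 : ∀ l x, 0 ≤ F l x)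
    (hs : Summable fun l => ∫ x in (0 : ℝ)..(2 * Real.pi), F l x) :
    Measurable (fun x => ∑' l, F l x) ∧
    IntervalIntegrable (fun x => ∑' l, F l x) volume 0 (2 * Real.pi) ∧
    (∀ᵐ x ∂(volume.restrict (Set.Ioc 0 (2 * Real.pi))), Summable fun l => F l x) ∧
    ∀ k : ℤ, HasSum (fun l => fc (F l) k) (fc (fun x => ∑' l, F l x) k) := by
  have hmeasE : Measurable (fun x => ∑' l, ENNReal.ofReal (F l x)) :=
    Measurable.tsum fun l => (hF l).measurable.ennreal_ofReal
  have hmeas : Measurable (fun x => ∑' l, F l x) := by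
    have : (fun x => ∑' l, F l x) = fun x => (∑' l, ENNReal.ofReal (F l x)).toReal := by
      funext x
      exact tsum_eq_toReal F h0 x
    rw [this]
    exact hmeasE.ennreal_toReal
  have htop := lint_lt_top F hF h0 hs
  have hpi : (0 : ℝ) ≤ 2 * Real.pi := by positivity
  refine ⟨hmeas, ?_, ?_, ?_⟩
  · rw [intervalIntegrable_iff_integrableOn_Ioc_of_le hpi]
    refine ⟨hmeas.aestronglyMeasurable, ?_⟩
    rw [hasFiniteIntegral_iff_enorm]
    refine lt_of_le_of_lt (lintegral_mono fun x => ?_) (lt_top_iff_ne_top.2 htop)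
    rw [tsum_eq_toReal F h0 x, Real.enorm_of_nonneg ENNReal.toReal_nonneg]
    exact ENNReal.ofReal_toReal_le
  · filter_upwards [ae_lt_top hmeasE htop] with x hx
    have h1 := ENNReal.summable_toReal hx.ne
    simp_rw [ENNReal.toReal_ofReal (h0 _ x)] at h1
    exact h1
  · intro k
    unfold fc
    refine HasSum.mul_left _ ?_
    simp_rw [intervalIntegral.integral_of_le hpi]
    have hexp : ∀ x : ℝ, ‖Complex.exp (-(k * x * Complex.I))‖ = 1 := by
      intro x
      have : (-(k * x * Complex.I) : ℂ) = ((-(k * x) : ℝ) : ℂ) * Complex.I := by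
        push_cast
        ring
      rw [this, Complex.norm_exp_ofReal_mul_I]
    have hcont : ∀ l, Continuous fun x : ℝ => (F l x : ℂ) * Complex.exp (-(k * x * Complex.I)) := by
      intro l
      have := hF l
      fun_prop
    have hsum : Summable fun l => ∫ x in Set.Ioc 0 (2 * Real.pi),
        ‖(F l x : ℂ) * Complex.exp (-(k * x * Complex.I))‖ := by
      have h2 : (fun l => ∫ x in Set.Ioc 0 (2 * Real.pi),
          ‖(F l x : ℂ) * Complex.exp (-(k * x * Complex.I))‖)
          = fun l => ∫ x in (0 : ℝ)..(2 * Real.pi), F l x := by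
        funext l
        rw [intervalIntegral.integral_of_le hpi]
        refine integral_congr_ae (Filter.Eventually.of_forall fun x => ?_)
        show ‖(F l x : ℂ) * Complex.exp (-(k * x * Complex.I))‖ = F l x
        rw [norm_mul, hexp, mul_one, Complex.norm_real, Real.norm_of_nonneg (h0 l x)]
      rw [h2]
      exact hs
    have hint : ∀ l, Integrable (fun x : ℝ => (F l x : ℂ) * Complex.exp (-(k * x * Complex.I)))
        (volume.restrict (Set.Ioc 0 (2 * Real.pi))) := fun l =>
      ((hcont l).continuousOn.integrableOn_Icc).mono_set Set.Ioc_subset_Icc_self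
    have h1 := hasSum_integral_of_summable_integral_norm hint hsum
    have h2 : (fun x : ℝ => ((∑' l, F l x : ℝ) : ℂ) * Complex.exp (-(k * x * Complex.I)))
        = fun x : ℝ => ∑' l, (F l x : ℂ) * Complex.exp (-(k * x * Complex.I)) := by
      funext x
      rw [tsum_mul_right, Complex.ofReal_tsum]
    rw [h2]
    exact h1

/-- from the previous theorem by linearity (finite sum over `k`) -/
theorem S_tsum (F : ℕ → ℝ → ℝ) (hF : ∀ l, Continuous (F l)) (h0 : ∀ l x, 0 ≤ F l x)
    (hs : Summable fun l => ∫ x in (0 : ℝ)..(2 * Real.pi), F l x) (N : ℕ) (x : ℝ) :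
    HasSum (fun l => S (F l) N x) (S (fun x => ∑' l, F l x) N x) := by
  unfold S
  exact hasSum_sum fun k _ => ((sum_facts F hF h0 hs).2.2.2 k).mul_right _

end P091
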