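import Vale.Agent.Lib.P091.Final
import Vale.Agent.Lib.P091.Ev.Final2

/-! # P091 module Circ: the results on the circle `ℝ/2πℤ` (Mathlib's `AddCircle`, `fourierCoeff`) -/

open Finset MeasureTheory Filter Topology

namespace P091

/-- partial sums on the circle -/
noncomputable def cPS [Fact (0 < 2 * Real.pi)] (f : AddCircle (2 * Real.pi) → ℂ) (N : ℕ)
    (x : AddCircle (2 * Real.pi)) : ℂ :=
  ∑ k ∈ Icc (-(N : ℤ)) N, fourierCoeff f k * fourier k x

section

variable [hF : Fact (0 < 2 * Real.pi)]

omit hF in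
theorem circ_fourier_coe (k : ℤ) (x : ℝ) :
    (fourier k (x : AddCircle (2 * Real.pi)) : ℂ) = Complex.exp (k * x * Complex.I) := by
  rw [fourier_coe_apply]
  congr 1
  have hpi : (Real.pi : ℂ) ≠ 0 := by exact_mod_cast Real.pi_ne_zero
  push_cast
  field_simp

theorem circ_coeff {g : ℝ → ℂ} {f : AddCircle (2 * Real.pi) → ℂ} (h : ∀ x : ℝ, f x = g x) (k : ℤ) :
    fourierCoeff f k = (1 / (2 * Real.pi) : ℝ) *
      ∫ x in (0 : ℝ)..(2 * Real.pi), g x * Complex.exp (-(k * x * Complex.I)) := by
  rw [fourierCoeff_eq_intervalIntegral f k 0, zero_add]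
  have h1 : ∀ x : ℝ, (fourier (-k) (x : AddCircle (2 * Real.pi)) : ℂ) • f x =
      g x * Complex.exp (-(k * x * Complex.I)) := by
    intro x
    rw [circ_fourier_coe, h x, smul_eq_mul, mul_comm]
    congr 2
    push_cast
    ring
  rw [intervalIntegral.integral_congr fun x _ => h1 x]
  rw [Complex.real_smul]

theorem circ_measurable {E : Type*} [MeasurableSpace E] {g : ℝ → E} (hg : Measurable g)
    {f : AddCircle (2 * Real.pi) → E} (h : ∀ x : ℝ, f x = g x) : Measurable f := by
  have h1 : f = fun x => g ((AddCircle.measurableEquivIoc (2 * Real.pi) 0 x :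
      Set.Ioc (0 : ℝ) (0 + 2 * Real.pi)) : ℝ) := by
    funext x
    rw [← h]
    congr 1
    exact (AddCircle.coe_equivIoc (p := 2 * Real.pi) (a := 0) (y := x)).symm
  rw [h1]
  exact hg.comp (measurable_subtype_coe.comp
    (AddCircle.measurableEquivIoc (2 * Real.pi) 0).measurable)

theorem circ_integrable {E : Type*} [NormedAddCommGroup E] {g : ℝ → E}
    {f : AddCircle (2 * Real.pi) → E} (hf : StronglyMeasurable f) (h : ∀ x : ℝ, f x = g x)
    (hg : IntervalIntegrable g volume 0 (2 * Real.pi)) :
    Integrable f AddCircle.haarAddCircle := by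
  have hT : (0 : ℝ) < 2 * Real.pi := hF.out
  have h1 : Integrable g (volume.restrict (Set.Ioc 0 (2 * Real.pi))) :=
    (intervalIntegrable_iff_integrableOn_Ioc_of_le hT.le).1 hg
  have h2 := AddCircle.measurePreserving_mk (2 * Real.pi) 0
  rw [zero_add] at h2
  have h3 : Integrable f (volume : Measure (AddCircle (2 * Real.pi))) := by
    refine (h2.integrable_comp hf.aestronglyMeasurable).1 ?_
    exact h1.congr (Eventually.of_forall fun x => (h x).symm)
  rw [AddCircle.volume_eq_smul_haarAddCircle] at h3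
  refine (integrable_smul_measure ?_ ENNReal.ofReal_ne_top).1 h3
  rw [Ne, ENNReal.ofReal_eq_zero, not_le]
  exact hT

theorem circ_ae {p : AddCircle (2 * Real.pi) → Prop} (hp : MeasurableSet {x | p x})
    (h : ∀ᵐ x : ℝ ∂(volume.restrict (Set.Ioc (0 : ℝ) (2 * Real.pi))),
      p (x : AddCircle (2 * Real.pi))) :
    ∀ᵐ x ∂(AddCircle.haarAddCircle : Measure (AddCircle (2 * Real.pi))), p x := by
  have hT : (0 : ℝ) < 2 * Real.pi := hF.out
  have h2 := AddCircle.measurePreserving_mk (2 * Real.pi) 0
  rw [zero_add] at h2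
  have h3 : ∀ᵐ x ∂(volume : Measure (AddCircle (2 * Real.pi))), p x := by
    rw [← h2.map_eq, ae_map_iff h2.measurable.aemeasurable hp]
    exact h
  rw [AddCircle.volume_eq_smul_haarAddCircle] at h3
  refine (Measure.ae_ennreal_smul_measure_iff ?_).1 h3
  rw [Ne, ENNReal.ofReal_eq_zero, not_le]
  exact hT

theorem circ_continuous_cPS (f : AddCircle (2 * Real.pi) → ℂ) (N : ℕ) : Continuous (cPS f N) := by
  unfold cPS
  refine continuous_finsetSum _ fun k _ => ?_
  exact continuous_const.mul (fourier k).continuous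

theorem circ_measurableSet (f : AddCircle (2 * Real.pi) → ℂ) :
    MeasurableSet {x | ¬ BddAbove (Set.range fun N : ℕ => ‖cPS f N x‖)} :=
  (measurableSet_bddAbove_range fun N => (circ_continuous_cPS f N).norm.measurable).compl

/-- everywhere divergence on the circle -/
theorem circ_everywhere (φ : ℝ → ℝ) (hmono : MonotoneOn φ (Set.Ici 0))
    (hnonneg : ∀ u, 0 ≤ u → 0 ≤ φ u) (hφ : Measurable fun u => φ |u|)
    (ho : φ =o[Filter.atTop] fun u => u * Real.sqrt (Real.log u)) :
    ∃ f : AddCircle (2 * Real.pi) → ℂ, Measurable f ∧ Integrable f AddCircle.haarAddCircle ∧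
      Integrable (fun x => φ ‖f x‖) AddCircle.haarAddCircle ∧
      ∀ x, ¬ BddAbove (Set.range fun N : ℕ => ‖cPS f N x‖) := by
  obtain ⟨g, hgm, hgp, hgi, hgφ, hg⟩ := main2 φ hmono hnonneg ho
  have hper : Function.Periodic g (2 * Real.pi) := hgp
  have hl : ∀ x : ℝ, hper.lift x = g x := fun x => hper.lift_coe x
  have hm : Measurable hper.lift := circ_measurable hgm hl
  refine ⟨hper.lift, hm, circ_integrable hm.stronglyMeasurable hl hgi, ?_, ?_⟩
  · refine circ_integrable (Measurable.stronglyMeasurable ?_) (fun x => ?_) hgφ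
    · have h1 := hφ.comp hm.norm
      have h2 : (fun x => φ ‖hper.lift x‖) = (fun u => φ |u|) ∘ fun x => ‖hper.lift x‖ := by
        funext x
        simp only [Function.comp_apply, abs_norm]
      rw [h2]
      exact h1
    · simp only [hl x]
  · intro x
    induction x using QuotientAddGroup.induction_on with
    | H x =>
      have h1 : (fun N : ℕ => ‖cPS hper.lift N (x : AddCircle (2 * Real.pi))‖) =
          fun N : ℕ => ‖SC g N x‖ := by
        funext N
        congr 1
        unfold cPS
        rw [Finset.sum_congr rfl fun k _ => by rw [circ_coeff hl k, circ_fourier_coe k x]]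
        rfl
      intro h2
      exact hg x (by rw [← h1]; exact h2)

/-- almost everywhere divergence for a nonnegative function on the circle -/
theorem circ_nonneg (φ : ℝ → ℝ) (hmono : MonotoneOn φ (Set.Ici 0))
    (hnonneg : ∀ u, 0 ≤ u → 0 ≤ φ u) (hφ : Measurable fun u => φ |u|)
    (ho : φ =o[Filter.atTop] fun u => u * Real.sqrt (Real.log u)) :
    ∃ f : AddCircle (2 * Real.pi) → ℝ, Measurable f ∧ (∀ x, 0 ≤ f x) ∧
      Integrable f AddCircle.haarAddCircle ∧
      Integrable (fun x => φ (f x)) AddCircle.haarAddCircle ∧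
      ∀ᵐ x ∂AddCircle.haarAddCircle,
        ¬ BddAbove (Set.range fun N : ℕ => ‖cPS (fun t => (f t : ℂ)) N x‖) := by
  obtain ⟨g, hgm, hg0, hgp, hgi, hgφ, hg⟩ := main φ hmono hnonneg ho
  have hper : Function.Periodic g (2 * Real.pi) := hgp
  have hl : ∀ x : ℝ, hper.lift x = g x := fun x => hper.lift_coe x
  have hm : Measurable hper.lift := circ_measurable hgm hl
  have h0 : ∀ x : AddCircle (2 * Real.pi), 0 ≤ hper.lift x := by
    intro x
    induction x using QuotientAddGroup.induction_on with
    | H x => exact (hg0 x).trans (hl x).ge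
  refine ⟨hper.lift, hm, h0, circ_integrable hm.stronglyMeasurable hl hgi, ?_, ?_⟩
  · refine circ_integrable (Measurable.stronglyMeasurable ?_) (fun x => ?_) hgφ
    · have h1 := hφ.comp hm
      have h2 : (fun x => φ (hper.lift x)) = (fun u => φ |u|) ∘ fun x => hper.lift x := by
        funext x
        simp only [Function.comp_apply, abs_of_nonneg (h0 x)]
      rw [h2]
      exact h1
    · simp only [hl x]
  · refine circ_ae (circ_measurableSet _) ?_
    filter_upwards [hg] with x hx h2
    refine hx ?_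
    have h1 : (fun N : ℕ => ‖cPS (fun t => ((hper.lift t : ℝ) : ℂ)) N (x : AddCircle (2 * Real.pi))‖) =
        fun N : ℕ => ‖S g N x‖ := by
      funext N
      congr 1
      unfold cPS
      rw [Finset.sum_congr rfl fun k _ => by
        rw [circ_coeff (g := fun t => ((g t : ℝ) : ℂ)) (fun t => by rw [hl t]) k,
          circ_fourier_coe k x]]
      rfl
    rw [← h1]
    exact h2

end

/-- a function which is nondecreasing on `[0, ∞)` is measurable there -/
theorem circ_phi_measurable {φ : ℝ → ℝ} (hmono : MonotoneOn φ (Set.Ici 0)) :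
    Measurable fun u => φ |u| := by
  have h1 : Monotone fun u : ℝ => φ (max u 0) := fun a b hab =>
    hmono (Set.mem_Ici.2 (le_max_right a 0)) (Set.mem_Ici.2 (le_max_right b 0))
      (max_le_max hab le_rfl)
  have h3 : (fun u : ℝ => φ |u|) = (fun u : ℝ => φ (max u 0)) ∘ fun u : ℝ => ‖u‖ := by
    funext u
    simp only [Function.comp_apply, Real.norm_eq_abs, max_eq_left (abs_nonneg u)]
  rw [h3]
  exact h1.measurable.comp measurable_norm

/-- negation of `o` -/
theorem circ_not_littleO {φ : ℝ → ℝ} (hnonneg : ∀ u, 0 ≤ u → 0 ≤ φ u)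
    (h : ¬ φ =o[Filter.atTop] fun u => u * Real.sqrt (Real.log u)) :
    ∃ c : ℝ, 0 < c ∧ ∃ᶠ u in atTop, c * (u * Real.sqrt (Real.log u)) ≤ φ u := by
  by_contra hcon
  push Not at hcon
  refine h (Asymptotics.isLittleO_iff.2 fun c hc => ?_)
  have h1 := hcon c hc
  filter_upwards [h1, eventually_ge_atTop 0] with u hu hu0
  rw [Real.norm_of_nonneg (hnonneg u hu0),
    Real.norm_of_nonneg (mul_nonneg hu0 (Real.sqrt_nonneg _))]
  exact hu.le

end P091
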