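import Mathlib

/-! # P091: a.e. divergent Fourier series in `φ(L)`, `φ(u) = o(u √(log u))`: definitions -/

open Finset

namespace P091

/-- Fourier coefficients of a function of period `2π` (normalised Lebesgue measure). -/
noncomputable def fc (f : ℝ → ℝ) (k : ℤ) : ℂ :=
  (1 / (2 * Real.pi) : ℝ) * ∫ x in (0 : ℝ)..(2 * Real.pi), (f x : ℂ) * Complex.exp (-(k * x * Complex.I))

/-- The symmetric partial sums of the Fourier series. -/
noncomputable def S (f : ℝ → ℝ) (N : ℕ) (x : ℝ) : ℂ :=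
  ∑ k ∈ Icc (-(N : ℤ)) N, fc f k * Complex.exp (k * x * Complex.I)

/-- Partial sums of a trigonometric series with coefficients `α`. -/
noncomputable def PS (α : ℤ → ℂ) (n : ℕ) (x : ℝ) : ℂ :=
  ∑ k ∈ Icc (-(n : ℤ)) n, α k * Complex.exp (k * x * Complex.I)

/-- position of the digit of level `l` for the cell `a` -/
def pos (q : ℕ) (g : ℕ → ℕ → ℕ) (l a : ℕ) : ℕ := l * q + g l (a / 2 ^ (l + 1))

/-- levels where the cell `i` has the bit zero -/
def Zs (m i : ℕ) : Finset ℕ := (range m).filter (fun l => i.testBit l = false)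

/-- levels where the cell `j` has the bit one -/
def Os (m j : ℕ) : Finset ℕ := (range m).filter (fun l => j.testBit l = true)

/-- the frequency used in the cell `i` -/
def freq (m q : ℕ) (g : ℕ → ℕ → ℕ) (i : ℕ) : ℕ := ∑ l ∈ Zs m i, 2 ^ pos q g l i

/-- the displacement of the point mass of the cell `j` -/
noncomputable def tau (m q : ℕ) (g : ℕ → ℕ → ℕ) (j : ℕ) : ℝ :=
  ∑ l ∈ Os m j, (1 / 2 : ℝ) ^ (pos q g l j + 1)

/-- cross talk -/
noncomputable def eps (m q : ℕ) (g : ℕ → ℕ → ℕ) (i j : ℕ) : ℝ :=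
  ∑ l ∈ Zs m i, ∑ l' ∈ Os m j,
    if pos q g l i < pos q g l' j then (1 / 2 : ℝ) ^ (pos q g l' j - pos q g l i + 1) else 0

/-- number of false collisions -/
def fcol (m : ℕ) (g : ℕ → ℕ → ℕ) (i j : ℕ) : ℕ :=
  ((Zs m i ∩ Os m j).filter (fun l => i / 2 ^ (l + 1) ≠ j / 2 ^ (l + 1) ∧
    g l (i / 2 ^ (l + 1)) = g l (j / 2 ^ (l + 1)))).card

/-- total error weight of a pair of cells -/
noncomputable def ww (m q : ℕ) (g : ℕ → ℕ → ℕ) (i j : ℕ) : ℝ := fcol m g i j + eps m q g i j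

/-- the point masses, in the unit interval -/
noncomputable def yy (m q : ℕ) (g : ℕ → ℕ → ℕ) (j : ℕ) : ℝ := (j + tau m q g j) / 2 ^ m

/-- Fourier coefficients of the measure `2^{-m} ∑ δ_{y_j}` -/
noncomputable def cc (m q : ℕ) (g : ℕ → ℕ → ℕ) (k : ℤ) : ℂ :=
  (1 / 2 : ℂ) ^ m * ∑ j ∈ range (2 ^ m), Complex.exp (-(k * (2 * Real.pi * yy m q g j : ℝ) * Complex.I))

/-- circular distance of cells -/
def cd (N i j : ℕ) : ℕ := min (max i j - min i j) (N - (max i j - min i j))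

/-- the weights -/
noncomputable def UU (N i j : ℕ) : ℝ := if 2 ≤ cd N i j then 1 / ((cd N i j : ℝ) - 1) else 0

end P091
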