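import Vale.Agent.Lib.P091.Defs

/-! # P091 module Dil: dilation preserves the measure of periodic sets -/

open Finset MeasureTheory

namespace P091

theorem per_nat (E : Set ℝ) (hper : ∀ x, x + 2 * Real.pi ∈ E ↔ x ∈ E) (K : ℕ) (x : ℝ) :
    x + (K : ℝ) * (2 * Real.pi) ∈ E ↔ x ∈ E := by
  induction K with
  | zero => simp
  | succ K ih =>
    have h : x + ((K + 1 : ℕ) : ℝ) * (2 * Real.pi)
        = (x + (K : ℝ) * (2 * Real.pi)) + 2 * Real.pi := by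
      push_cast; ring
    rw [h, hper, ih]

theorem meas_block (E : Set ℝ) (hper : ∀ x, x + 2 * Real.pi ∈ E ↔ x ∈ E) (K : ℕ) :
    volume (Set.Ioc ((K : ℝ) * (2 * Real.pi)) (((K + 1 : ℕ) : ℝ) * (2 * Real.pi)) ∩ E) =
      volume (Set.Ioc 0 (2 * Real.pi) ∩ E) := by
  have h := measure_preimage_add_right (volume : Measure ℝ) ((K : ℝ) * (2 * Real.pi))
    (Set.Ioc ((K : ℝ) * (2 * Real.pi)) (((K + 1 : ℕ) : ℝ) * (2 * Real.pi)) ∩ E)
  rw [← h]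
  congr 1
  ext x
  simp only [Set.mem_preimage, Set.mem_inter_iff, Set.mem_Ioc]
  rw [per_nat E hper K x]
  have h2 : (((K + 1 : ℕ) : ℝ) * (2 * Real.pi)) = 2 * Real.pi + (K : ℝ) * (2 * Real.pi) := by
    push_cast; ring
  rw [h2]
  constructor
  · rintro ⟨⟨h3, h4⟩, h5⟩
    exact ⟨⟨by linarith, by linarith⟩, h5⟩
  · rintro ⟨⟨h3, h4⟩, h5⟩
    exact ⟨⟨by linarith, by linarith⟩, h5⟩

theorem meas_long (E : Set ℝ) (hE : MeasurableSet E) (hper : ∀ x, x + 2 * Real.pi ∈ E ↔ x ∈ E)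
    (K : ℕ) :
    volume (Set.Ioc 0 ((K : ℝ) * (2 * Real.pi)) ∩ E) =
      (K : ENNReal) * volume (Set.Ioc 0 (2 * Real.pi) ∩ E) := by
  induction K with
  | zero => simp
  | succ K ih =>
    have hp : (0 : ℝ) < 2 * Real.pi := by positivity
    have h1 : (0 : ℝ) ≤ (K : ℝ) * (2 * Real.pi) := by positivity
    have h2 : (K : ℝ) * (2 * Real.pi) ≤ ((K + 1 : ℕ) : ℝ) * (2 * Real.pi) := by
      push_cast; linarith
    have h3 : Set.Ioc 0 (((K + 1 : ℕ) : ℝ) * (2 * Real.pi)) ∩ E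
        = (Set.Ioc 0 ((K : ℝ) * (2 * Real.pi)) ∩ E)
          ∪ (Set.Ioc ((K : ℝ) * (2 * Real.pi)) (((K + 1 : ℕ) : ℝ) * (2 * Real.pi)) ∩ E) := by
      rw [← Set.union_inter_distrib_right, Set.Ioc_union_Ioc_eq_Ioc h1 h2]
    have h4 : Disjoint (Set.Ioc 0 ((K : ℝ) * (2 * Real.pi)) ∩ E)
        (Set.Ioc ((K : ℝ) * (2 * Real.pi)) (((K + 1 : ℕ) : ℝ) * (2 * Real.pi)) ∩ E) := by
      rw [Set.disjoint_left]
      rintro x ⟨⟨_, hx⟩, _⟩ ⟨⟨hy, _⟩, _⟩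
      exact absurd hy (not_lt.mpr hx)
    rw [h3, measure_union h4 (measurableSet_Ioc.inter hE), ih, meas_block E hper K]
    push_cast
    ring

/-- dilation preserves the measure of periodic sets (e.g. via `Function.Periodic` interval integrals of
the indicator function and `intervalIntegral.integral_comp_mul_left`) -/
theorem meas_dilate (E : Set ℝ) (hE : MeasurableSet E) (hper : ∀ x, x + 2 * Real.pi ∈ E ↔ x ∈ E)
    (K : ℕ) (hK : 1 ≤ K) :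
    volume {x : ℝ | x ∈ Set.Ioc 0 (2 * Real.pi) ∧ (K : ℝ) * x ∈ E} =
      volume (Set.Ioc 0 (2 * Real.pi) ∩ E) := by
  have hK0 : (0 : ℝ) < K := by exact_mod_cast hK
  have h1 : {x : ℝ | x ∈ Set.Ioc 0 (2 * Real.pi) ∧ (K : ℝ) * x ∈ E}
      = (fun x => (K : ℝ) * x) ⁻¹' (Set.Ioc 0 ((K : ℝ) * (2 * Real.pi)) ∩ E) := by
    ext x
    simp only [Set.mem_setOf_eq, Set.mem_preimage, Set.mem_inter_iff, Set.mem_Ioc]
    constructor
    · rintro ⟨⟨h2, h3⟩, h4⟩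
      exact ⟨⟨mul_pos hK0 h2, mul_le_mul_of_nonneg_left h3 hK0.le⟩, h4⟩
    · rintro ⟨⟨h2, h3⟩, h4⟩
      exact ⟨⟨pos_of_mul_pos_right h2 hK0.le, le_of_mul_le_mul_left h3 hK0⟩, h4⟩
  rw [h1, Real.volume_preimage_mul_left hK0.ne', meas_long E hE hper K, ← mul_assoc]
  have h2 : ENNReal.ofReal |(K : ℝ)⁻¹| * (K : ENNReal) = 1 := by
    rw [abs_of_pos (inv_pos.mpr hK0), ← ENNReal.ofReal_natCast K, ← ENNReal.ofReal_mul (by positivity),
      inv_mul_cancel₀ hK0.ne', ENNReal.ofReal_one]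
  rw [h2, one_mul]

end P091
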