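import Vale.Agent.Lib.P091.Defs

/-! # P091 module FejA: the Fejer kernel -/

open Finset

namespace P091

theorem FejA.icc_succ (M : ℕ) (G : ℤ → ℂ) :
    ∑ k ∈ Icc (-((M + 1 : ℕ) : ℤ)) ((M + 1 : ℕ) : ℤ), G k =
      G (-((M + 1 : ℕ) : ℤ)) + (G ((M + 1 : ℕ) : ℤ) + ∑ k ∈ Icc (-(M : ℤ)) M, G k) := by
  have h : Icc (-((M + 1 : ℕ) : ℤ)) ((M + 1 : ℕ) : ℤ) =
      insert (-((M + 1 : ℕ) : ℤ)) (insert ((M + 1 : ℕ) : ℤ) (Icc (-(M : ℤ)) M)) := by
    ext k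
    simp only [mem_Icc, mem_insert]
    push_cast
    omega
  rw [h, sum_insert, sum_insert]
  · simp
  · simp only [mem_Icc, mem_insert]
    push_cast
    omega

theorem FejA.line (M : ℕ) (F : ℤ → ℂ) : ∑ k ∈ Icc (-(M : ℤ)) M, F k =
    F 0 + ∑ a ∈ range M, F ((a : ℤ) - M) + ∑ a ∈ range M, F ((M : ℤ) - a) := by
  induction M with
  | zero => simp
  | succ M ih =>
    rw [FejA.icc_succ, ih, sum_range_succ', sum_range_succ']
    have e1 : ∀ a : ℕ, ((a + 1 : ℕ) : ℤ) - ((M + 1 : ℕ) : ℤ) = (a : ℤ) - M := fun a => by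
      push_cast; ring
    have e2 : ∀ a : ℕ, ((M + 1 : ℕ) : ℤ) - ((a + 1 : ℕ) : ℤ) = (M : ℤ) - a := fun a => by
      push_cast; ring
    simp only [e1, e2]
    simp only [Nat.cast_zero, zero_sub, sub_zero]
    ring

theorem FejA.dbl (M : ℕ) (F : ℤ → ℂ) : ∑ a ∈ range M, ∑ b ∈ range M, F ((a : ℤ) - b) =
    ∑ k ∈ Icc (-(M : ℤ)) M, ((M : ℂ) - ((|k| : ℤ) : ℂ)) * F k := by
  induction M with
  | zero => simp
  | succ M ih =>
    rw [sum_range_succ]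
    have e1 : ∑ a ∈ range M, ∑ b ∈ range (M + 1), F ((a : ℤ) - b) =
        ∑ a ∈ range M, ∑ b ∈ range M, F ((a : ℤ) - b) + ∑ a ∈ range M, F ((a : ℤ) - M) := by
      rw [← sum_add_distrib]
      exact sum_congr rfl (fun a _ => sum_range_succ _ _)
    have e2 : ∑ b ∈ range (M + 1), F ((M : ℤ) - b) =
        ∑ b ∈ range M, F ((M : ℤ) - b) + F 0 := by
      rw [sum_range_succ, sub_self]
    rw [e1, e2, ih, FejA.icc_succ]
    have e3 : |(-((M + 1 : ℕ) : ℤ))| = ((M + 1 : ℕ) : ℤ) := by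
      rw [abs_neg]; exact abs_of_nonneg (by positivity)
    have e4 : |(((M + 1 : ℕ) : ℤ))| = ((M + 1 : ℕ) : ℤ) := abs_of_nonneg (by positivity)
    rw [e3, e4]
    have e5 : (((M + 1 : ℕ) : ℂ) - (((M + 1 : ℕ) : ℤ) : ℂ)) = 0 := by push_cast; ring
    rw [e5, zero_mul, zero_mul, zero_add, zero_add]
    have e6 : ∑ k ∈ Icc (-(M : ℤ)) M, (((M + 1 : ℕ) : ℂ) - ((|k| : ℤ) : ℂ)) * F k =
        ∑ k ∈ Icc (-(M : ℤ)) M, ((M : ℂ) - ((|k| : ℤ) : ℂ)) * F k +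
          ∑ k ∈ Icc (-(M : ℤ)) M, F k := by
      rw [← sum_add_distrib]
      refine sum_congr rfl (fun k _ => ?_)
      push_cast
      ring
    rw [e6, FejA.line M F]
    ring

/-- The Fejer kernel: expand the square, there are `M - |k|` pairs `a, b < M` with `a - b = k`. -/
theorem fejer (M : ℕ) (hM : 1 ≤ M) (u : ℝ) :
    ∑ k ∈ Icc (-(M : ℤ)) M, ((1 - |(k : ℝ)| / M : ℝ) : ℂ) * Complex.exp (k * u * Complex.I) =
      (((1 / M : ℝ) * ‖∑ a ∈ range M, Complex.exp (a * u * Complex.I)‖ ^ 2 : ℝ) : ℂ) := by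
  have hM0 : (M : ℂ) ≠ 0 := by
    have : M ≠ 0 := by omega
    exact_mod_cast this
  have h1 : ((‖∑ a ∈ range M, Complex.exp (a * u * Complex.I)‖ ^ 2 : ℝ) : ℂ) =
      ∑ a ∈ range M, ∑ b ∈ range M,
        (fun k : ℤ => Complex.exp (k * u * Complex.I)) ((a : ℤ) - b) := by
    have h2 := Complex.mul_conj' (∑ a ∈ range M, Complex.exp (a * u * Complex.I))
    rw [Complex.ofReal_pow, ← h2, map_sum, sum_mul_sum]
    refine sum_congr rfl (fun a _ => sum_congr rfl (fun b _ => ?_))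
    rw [← Complex.exp_conj, ← Complex.exp_add]
    congr 1
    simp only [map_mul, Complex.conj_I, Complex.conj_ofReal, map_natCast]
    push_cast
    ring
  rw [Complex.ofReal_mul, h1, FejA.dbl M (fun k : ℤ => Complex.exp (k * u * Complex.I)), mul_sum]
  refine sum_congr rfl (fun k _ => ?_)
  rw [← mul_assoc]
  congr 1
  have hk : ((|k| : ℤ) : ℂ) = ((|(k : ℝ)| : ℝ) : ℂ) := by
    rw [← Int.cast_abs]
    norm_cast
  rw [hk]
  push_cast
  field_simp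

end P091
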