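import Vale.Agent.Lib.P091.Defs

/-! # P091 module GlueC: the Orlicz condition -/

open Finset MeasureTheory

namespace P091

/-- `φ (∑ b_l) ≤ φ 1 + ∑ φ (2^(l+1) b_l)` over the `l` with `2^(l+1) b_l > 1`: if the series diverges
the left side is `φ 0`; otherwise some `l` has `∑ b ≤ 2^(l+1) b_l` (since `∑ 2^-(l+1) = 1`). -/
theorem phi_tsum_le (φ : ℝ → ℝ) (hφ : MonotoneOn φ (Set.Ici 0)) (hφ0 : ∀ u, 0 ≤ u → 0 ≤ φ u)
    (b : ℕ → ℝ) (hb : ∀ l, 0 ≤ b l) :
    ENNReal.ofReal (φ (∑' l, b l)) ≤ ENNReal.ofReal (φ 1) +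
      ∑' l, (if 1 < 2 ^ (l + 1) * b l then ENNReal.ofReal (φ (2 ^ (l + 1) * b l)) else 0) := by
  have hle : ∀ s : ℝ, 0 ≤ s → s ≤ 1 → ENNReal.ofReal (φ s) ≤ ENNReal.ofReal (φ 1) := by
    intro s h0 h1
    exact ENNReal.ofReal_le_ofReal (hφ h0 (Set.mem_Ici.2 zero_le_one) h1)
  by_cases hs : Summable b
  · have hs0 : 0 ≤ ∑' l, b l := tsum_nonneg hb
    have hex : ∃ l, ∑' l, b l ≤ 2 ^ (l + 1) * b l := by
      by_contra hc
      push Not at hc
      have h1 : ∀ l, b l < (∑' l, b l) / 2 * (1 / 2) ^ l := by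
        intro l
        have h := hc l
        have h2 : (0 : ℝ) < 2 ^ (l + 1) := by positivity
        rw [one_div, inv_pow, ← div_eq_mul_inv, div_div, lt_div_iff₀ (by positivity)]
        calc b l * (2 * 2 ^ l) = 2 ^ (l + 1) * b l := by ring
          _ < _ := h
      have hg : Summable fun l : ℕ => (∑' l, b l) / 2 * (1 / 2 : ℝ) ^ l :=
        summable_geometric_two.mul_left _
      have h3 := Summable.tsum_lt_tsum (fun l => (h1 l).le) (h1 0) hs hg
      rw [tsum_mul_left, tsum_geometric_two] at h3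
      linarith
    obtain ⟨l, hl⟩ := hex
    by_cases h1 : 1 < 2 ^ (l + 1) * b l
    · refine le_trans ?_ le_add_self
      refine le_trans ?_ (ENNReal.le_tsum l)
      rw [if_pos h1]
      exact ENNReal.ofReal_le_ofReal (hφ hs0 (Set.mem_Ici.2 (by linarith)) hl)
    · exact (hle _ hs0 (hl.trans (not_lt.1 h1))).trans le_self_add
  · rw [tsum_eq_zero_of_not_summable hs]
    exact (hle 0 le_rfl zero_le_one).trans le_self_add

/-- growth bound from the little-o condition: `φ u ≤ η u √(log u)` for `u ≥ u0`, `A = φ (max u0 2)` -/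
theorem phi_growth (φ : ℝ → ℝ) (hφ : MonotoneOn φ (Set.Ici 0)) (hφ0 : ∀ u, 0 ≤ u → 0 ≤ φ u)
    (ho : φ =o[Filter.atTop] fun u => u * Real.sqrt (Real.log u)) (η : ℝ) (hη : 0 < η) :
    ∃ A : ℝ, 0 ≤ A ∧ ∀ u, 0 ≤ u → φ u ≤ A + η * u * Real.sqrt (Real.log (2 + u)) := by
  have h1 := ho.bound hη
  rw [Filter.eventually_atTop] at h1
  obtain ⟨u0, hu0⟩ := h1
  have h2 : (0 : ℝ) ≤ max u0 2 := le_max_of_le_right (by norm_num)
  refine ⟨φ (max u0 2), hφ0 _ h2, fun u hu => ?_⟩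
  rcases le_total u (max u0 2) with h | h
  · have h3 : φ u ≤ φ (max u0 2) := hφ hu h2 h
    have h4 : 0 ≤ η * u * Real.sqrt (Real.log (2 + u)) := by positivity
    linarith
  · have h3 := hu0 u ((le_max_left _ _).trans h)
    have h4 : (2 : ℝ) ≤ u := (le_max_right _ _).trans h
    rw [Real.norm_eq_abs, Real.norm_eq_abs, abs_mul, abs_of_nonneg hu,
      abs_of_nonneg (Real.sqrt_nonneg _)] at h3
    have h5 : Real.sqrt (Real.log u) ≤ Real.sqrt (Real.log (2 + u)) :=
      Real.sqrt_le_sqrt (Real.log_le_log (by linarith) (by linarith))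
    have h6 := hφ0 _ h2
    have h7 := le_abs_self (φ u)
    have h8 : η * (u * Real.sqrt (Real.log u)) ≤ η * (u * Real.sqrt (Real.log (2 + u))) :=
      mul_le_mul_of_nonneg_left (mul_le_mul_of_nonneg_left h5 hu) hη.le
    rw [mul_assoc]
    linarith

/-- integral of one term: where `u x > 1`, `φ (u x) ≤ (A + η √(log (2 + B))) u x` -/
theorem phi_term (φ : ℝ → ℝ) (hφ : MonotoneOn φ (Set.Ici 0)) (hφ0 : ∀ u, 0 ≤ u → 0 ≤ φ u)
    (A η : ℝ) (hA : 0 ≤ A) (hη : 0 ≤ η)
    (hg : ∀ u, 0 ≤ u → φ u ≤ A + η * u * Real.sqrt (Real.log (2 + u)))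
    (u : ℝ → ℝ) (hu : Continuous u) (hu0 : ∀ x, 0 ≤ u x) (B : ℝ) (hB : ∀ x, u x ≤ B) :
    ∫⁻ x in Set.Ioc 0 (2 * Real.pi), (if 1 < u x then ENNReal.ofReal (φ (u x)) else 0) ≤
      ENNReal.ofReal ((A + η * Real.sqrt (Real.log (2 + B))) *
        ∫ x in (0 : ℝ)..(2 * Real.pi), u x) := by
  set C : ℝ := A + η * Real.sqrt (Real.log (2 + B)) with hC
  have hC0 : 0 ≤ C := by positivity
  have hpt : ∀ x, (if 1 < u x then ENNReal.ofReal (φ (u x)) else 0) ≤
      ENNReal.ofReal (C * u x) := by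
    intro x
    split_ifs with h
    · refine ENNReal.ofReal_le_ofReal ?_
      have h1 := hg (u x) (hu0 x)
      have h2 : Real.sqrt (Real.log (2 + u x)) ≤ Real.sqrt (Real.log (2 + B)) :=
        Real.sqrt_le_sqrt (Real.log_le_log (by linarith [hu0 x]) (by linarith [hB x]))
      have h3 : η * u x * Real.sqrt (Real.log (2 + u x)) ≤
          η * u x * Real.sqrt (Real.log (2 + B)) :=
        mul_le_mul_of_nonneg_left h2 (mul_nonneg hη (hu0 x))
      have h4 : A ≤ A * u x := le_mul_of_one_le_right hA h.le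
      calc φ (u x) ≤ A * u x + η * u x * Real.sqrt (Real.log (2 + B)) := by linarith
        _ = C * u x := by rw [hC]; ring
    · exact zero_le
  have hint : IntegrableOn (fun x => C * u x) (Set.Ioc 0 (2 * Real.pi)) :=
    ((continuous_const.mul hu).integrableOn_Icc).mono_set Set.Ioc_subset_Icc_self
  calc ∫⁻ x in Set.Ioc 0 (2 * Real.pi), (if 1 < u x then ENNReal.ofReal (φ (u x)) else 0)
      ≤ ∫⁻ x in Set.Ioc 0 (2 * Real.pi), ENNReal.ofReal (C * u x) := lintegral_mono hpt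
    _ = ENNReal.ofReal (∫ x in Set.Ioc 0 (2 * Real.pi), C * u x) :=
        (ofReal_integral_eq_lintegral_ofReal hint
          (Filter.Eventually.of_forall fun x => mul_nonneg hC0 (hu0 x))).symm
    _ = _ := by
        rw [intervalIntegral.integral_of_le (by positivity), integral_const_mul]

end P091
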