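import Vale.Agent.Lib.P091.Defs

/-! # P091 module Seq: choice of the parameters -/

open Finset

namespace P091

private theorem seq_one (c : ℝ) (hc : 0 < c) (C m0 : ℕ) (A : ℝ → ℝ)
    (hA : ∀ η, 0 < η → 0 ≤ A η) (l : ℕ) :
    ∃ (a : ℝ) (η : ℝ) (m : ℕ), 0 < a ∧ 0 < η ∧ a ≤ (1 / 4 : ℝ) ^ (l + 1) ∧ m0 ≤ m ∧
      ((l : ℝ) + 1 ≤ a * (c * m)) ∧
      2 ^ (l + 1) * a * (A η + η *
        Real.sqrt (Real.log (2 + 2 ^ (l + 1) * a * 2 ^ (C * m ^ 2)))) ≤ (1 / 2 : ℝ) ^ l := by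
  have hl : (0 : ℝ) < (l : ℝ) + 1 := by positivity
  set D : ℝ := Real.sqrt (C + 2) with hD
  have hDpos : 0 < D := Real.sqrt_pos.2 (by positivity)
  set B : ℝ := ((l : ℝ) + 1) / c + 2 with hB
  have hBpos : 0 < B := by positivity
  set η : ℝ := (1 / 2 : ℝ) ^ l / (2 * 2 ^ (l + 1) * D * B) with hη
  have hηpos : 0 < η := by positivity
  have hAη := hA η hηpos
  set a : ℝ := min ((1 / 4 : ℝ) ^ (l + 1)) (min ((1 / 2 : ℝ) ^ l / (2 * 2 ^ (l + 1) * (A η + 1)))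
    (((l : ℝ) + 1) / ((m0 + 1) * c))) with ha
  have hapos : 0 < a := by
    rw [ha]
    refine lt_min (by positivity) (lt_min ?_ (by positivity))
    have : 0 < A η + 1 := by linarith
    positivity
  have ha1 : a ≤ (1 / 4 : ℝ) ^ (l + 1) := min_le_left _ _
  have ha2 : a ≤ (1 / 2 : ℝ) ^ l / (2 * 2 ^ (l + 1) * (A η + 1)) :=
    (min_le_right _ _).trans (min_le_left _ _)
  have ha3 : a ≤ ((l : ℝ) + 1) / ((m0 + 1) * c) := (min_le_right _ _).trans (min_le_right _ _)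
  have ha4 : a ≤ 1 := ha1.trans (pow_le_one₀ (by norm_num) (by norm_num))
  set m : ℕ := ⌈((l : ℝ) + 1) / (a * c)⌉₊ with hm
  have hm1 : ((l : ℝ) + 1) / (a * c) ≤ m := Nat.le_ceil _
  have hm2 : (m : ℝ) < ((l : ℝ) + 1) / (a * c) + 1 := Nat.ceil_lt_add_one (by positivity)
  refine ⟨a, η, m, hapos, hηpos, ha1, ?_, ?_, ?_⟩
  · have h1 : (m0 : ℝ) ≤ ((l : ℝ) + 1) / (a * c) := by
      rw [le_div_iff₀ (by positivity)]
      rw [le_div_iff₀ (by positivity)] at ha3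
      nlinarith [mul_pos hapos hc]
    exact_mod_cast h1.trans hm1
  · rw [div_le_iff₀ (by positivity)] at hm1
    linarith
  · have h2a : 2 ^ (l + 1) * a ≤ 1 := by
      calc 2 ^ (l + 1) * a ≤ 2 ^ (l + 1) * (1 / 4 : ℝ) ^ (l + 1) :=
            mul_le_mul_of_nonneg_left ha1 (by positivity)
        _ = (1 / 2 : ℝ) ^ (l + 1) := by rw [← mul_pow]; norm_num
        _ ≤ 1 := pow_le_one₀ (by norm_num) (by norm_num)
    have hP1 : (1 : ℝ) ≤ 2 ^ (C * m ^ 2) := one_le_pow₀ (by norm_num)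
    have hlog : Real.log (2 + 2 ^ (l + 1) * a * 2 ^ (C * m ^ 2)) ≤ 2 + C * m ^ 2 := by
      have h3 : 2 + 2 ^ (l + 1) * a * 2 ^ (C * m ^ 2) ≤ 3 * (2 : ℝ) ^ (C * m ^ 2) := by
        have h4 : 2 ^ (l + 1) * a * 2 ^ (C * m ^ 2) ≤ 1 * (2 : ℝ) ^ (C * m ^ 2) :=
          mul_le_mul_of_nonneg_right h2a (by positivity)
        linarith
      have h5 : Real.log (2 + 2 ^ (l + 1) * a * 2 ^ (C * m ^ 2)) ≤
          Real.log (3 * (2 : ℝ) ^ (C * m ^ 2)) := Real.log_le_log (by positivity) h3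
      rw [Real.log_mul (by norm_num) (by positivity), Real.log_pow] at h5
      have h6 : Real.log 3 ≤ 2 := by
        have := Real.log_le_sub_one_of_pos (by norm_num : (0 : ℝ) < 3)
        linarith
      have h7 : Real.log 2 ≤ 1 := by
        have := Real.log_le_sub_one_of_pos (by norm_num : (0 : ℝ) < 2)
        linarith
      have h8 : ((C * m ^ 2 : ℕ) : ℝ) * Real.log 2 ≤ ((C * m ^ 2 : ℕ) : ℝ) * 1 :=
        mul_le_mul_of_nonneg_left h7 (by positivity)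
      push_cast at h5 h8
      linarith
    have hsq : Real.sqrt (Real.log (2 + 2 ^ (l + 1) * a * 2 ^ (C * m ^ 2))) ≤ D * (m + 1) := by
      apply Real.sqrt_le_iff.2
      refine ⟨by positivity, ?_⟩
      have h9 : D ^ 2 = C + 2 := Real.sq_sqrt (by positivity)
      have h10 : (D * (m + 1)) ^ 2 = (C + 2) * ((m : ℝ) + 1) ^ 2 := by rw [mul_pow, h9]
      rw [h10]
      have hC : (0 : ℝ) ≤ C := Nat.cast_nonneg _
      have hm0 : (0 : ℝ) ≤ m := Nat.cast_nonneg _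
      nlinarith [mul_nonneg hC hm0, mul_nonneg (mul_nonneg hC hm0) hm0]
    have hsum : a * (m + 1) ≤ B := by
      have h11 : a * (m + 1) ≤ a * (((l : ℝ) + 1) / (a * c) + 2) :=
        mul_le_mul_of_nonneg_left (by linarith) hapos.le
      have h12 : a * (((l : ℝ) + 1) / (a * c) + 2) = ((l : ℝ) + 1) / c + 2 * a := by
        field_simp
      rw [h12] at h11
      rw [hB]
      linarith
    have hA1 : 2 ^ (l + 1) * a * A η ≤ (1 / 2 : ℝ) ^ l / 2 := by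
      rw [le_div_iff₀ (by positivity)] at ha2
      have h13 : 0 ≤ 2 ^ (l + 1) * a := by positivity
      nlinarith
    have hA2 : 2 ^ (l + 1) * a * (η *
        Real.sqrt (Real.log (2 + 2 ^ (l + 1) * a * 2 ^ (C * m ^ 2)))) ≤ (1 / 2 : ℝ) ^ l / 2 := by
      calc 2 ^ (l + 1) * a * (η * Real.sqrt (Real.log (2 + 2 ^ (l + 1) * a * 2 ^ (C * m ^ 2))))
          ≤ 2 ^ (l + 1) * a * (η * (D * (m + 1))) := by
            apply mul_le_mul_of_nonneg_left _ (by positivity)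
            exact mul_le_mul_of_nonneg_left hsq hηpos.le
        _ = 2 ^ (l + 1) * η * D * (a * (m + 1)) := by ring
        _ ≤ 2 ^ (l + 1) * η * D * B := mul_le_mul_of_nonneg_left hsum (by positivity)
        _ = (1 / 2 : ℝ) ^ l / 2 := by
            rw [hη]
            field_simp
    rw [mul_add]
    linarith

/-- Choice of the weights `a l` and the sizes `m l`. `c l, C l, m0 l` are given by the block theorem,
`A η` by the growth bound. Take `η l` tiny (e.g. `η l * 2^(l+1) * √(C l + 1) * ((l+1)/c l + 1) * 8 ≤ 2^-l`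
and the same with `√(l + 4)`), then `a l` tiny (`a l * 2^(l+1) * A (η l) * 4 ≤ 2^-l`, `a l ≤ 4^-(l+1)`,
`a l * m0 l * c l ≤ l + 1`), then `m l = ⌈(l+1)/(a l * c l)⌉₊ ≤ (l+1)/(a l * c l) + 1`; and
`log (2 + 2^(l+1) a 2^(C m²)) ≤ l + 4 + C m²`, `√(x + y) ≤ √x + √y`. -/
theorem exists_params (c : ℕ → ℝ) (hc : ∀ l, 0 < c l) (C m0 : ℕ → ℕ) (A : ℝ → ℝ)
    (hA : ∀ η, 0 < η → 0 ≤ A η) :
    ∃ (a : ℕ → ℝ) (η : ℕ → ℝ) (m : ℕ → ℕ), (∀ l, 0 < a l) ∧ (∀ l, 0 < η l) ∧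
      (∀ l, a l ≤ (1 / 4 : ℝ) ^ (l + 1)) ∧ (∀ l, m0 l ≤ m l) ∧
      (∀ l : ℕ, (l : ℝ) + 1 ≤ a l * (c l * m l)) ∧
      (∀ l : ℕ, 2 ^ (l + 1) * a l * (A (η l) + η l *
        Real.sqrt (Real.log (2 + 2 ^ (l + 1) * a l * 2 ^ (C l * m l ^ 2)))) ≤ (1 / 2 : ℝ) ^ l) := by
  choose a η m h1 h2 h3 h4 h5 h6 using fun l => seq_one (c l) (hc l) (C l) (m0 l) A hA l
  exact ⟨a, η, m, h1, h2, h3, h4, h5, h6⟩

end P091
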