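import Vale.Agent.Lib.P091.Block
import Vale.Agent.Lib.P091.Dil
import Vale.Agent.Lib.P091.GlueB
import Vale.Agent.Lib.P091.GlueC
import Vale.Agent.Lib.P091.Seq

/-! # P091 module Final: assembly -/

open Finset MeasureTheory

namespace P091

theorem fc_const_mul (a : ℝ) (F : ℝ → ℝ) (k : ℤ) : fc (fun x => a * F x) k = a * fc F k := by
  unfold fc
  have : ∀ x : ℝ, ((a * F x : ℝ) : ℂ) * Complex.exp (-(k * x * Complex.I)) =
      (a : ℂ) * ((F x : ℂ) * Complex.exp (-(k * x * Complex.I))) := fun x => by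
    push_cast; ring
  simp_rw [this]
  rw [intervalIntegral.integral_const_mul]
  ring

theorem S_const_mul (a : ℝ) (F : ℝ → ℝ) (N : ℕ) (x : ℝ) :
    S (fun x => a * F x) N x = a * S F N x := by
  unfold S
  rw [mul_sum]
  refine sum_congr rfl fun k _ => ?_
  rw [fc_const_mul]; ring

/-- the dilation factors -/
def KK (M : ℕ → ℕ) : ℕ → ℕ
  | 0 => 1
  | l + 1 => KK M l * (M l + 1)

theorem KK_pos (M : ℕ → ℕ) (l : ℕ) : 1 ≤ KK M l := by
  induction l with
  | zero => exact le_rfl
  | succ l ih => exact Nat.mul_pos ih (Nat.succ_pos _)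

theorem KK_lt (M : ℕ → ℕ) {l l' : ℕ} (h : l < l') : KK M l * (M l + 1) ≤ KK M l' := by
  induction h with
  | refl => exact le_rfl
  | @step k _ ih => exact ih.trans (Nat.le_mul_of_pos_right _ (Nat.succ_pos _))

theorem PS_periodic (α : ℤ → ℂ) (n : ℕ) (x : ℝ) : PS α n (x + 2 * Real.pi) = PS α n x := by
  unfold PS
  refine sum_congr rfl fun k _ => ?_
  congr 1
  rw [Complex.exp_eq_exp_iff_exists_int]
  exact ⟨k, by push_cast; ring⟩

theorem continuous_PS (α : ℤ → ℂ) (n : ℕ) : Continuous (PS α n) := by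
  unfold PS
  refine continuous_finsetSum _ fun k _ => ?_
  fun_prop

/-- the pointwise lower bound of the partial sums of the sum -/
theorem lower (a : ℕ → ℝ) (ha : ∀ l, 0 < a l) (hsa : Summable a) (M : ℕ → ℕ) (α : ℕ → ℤ → ℂ)
    (hα : ∀ l, ∀ k : ℤ, (M l : ℤ) < |k| → α l k = 0) (hα0 : ∀ l, α l 0 = 1)
    (hr : ∀ l x, (PS (α l) (M l) x).im = 0) (h0 : ∀ l x, 0 ≤ (PS (α l) (M l) x).re)
    (hs : Summable fun l => ∫ x in (0 : ℝ)..(2 * Real.pi), a l * FF (α l) (M l) (KK M l) x)
    (x : ℝ) (hx : Summable fun l => a l * FF (α l) (M l) (KK M l) x) (l n : ℕ) (hn : 1 ≤ n)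
    (hn' : n ≤ M l) :
    a l * ‖PS (α l) n (KK M l * x)‖ -
      (∑' l', a l' * FF (α l') (M l') (KK M l') x + ∑' l', a l') ≤
        ‖S (fun x => ∑' l', a l' * FF (α l') (M l') (KK M l') x) (n * KK M l) x‖ := by
  set F : ℕ → ℝ → ℝ := fun l' x => a l' * FF (α l') (M l') (KK M l') x with hF
  have hF0 : ∀ l' x, 0 ≤ F l' x := fun l' x => mul_nonneg (ha l').le (h0 l' _)
  have hS := S_tsum F (fun l' => continuous_const.mul (continuous_FF _ _ _)) hF0 hs
    (n * KK M l) x
  have hval : ∀ l', S (F l') (n * KK M l) x =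
      a l' * PS (α l') (n * KK M l / KK M l') (KK M l' * x) := fun l' => by
    rw [hF]
    rw [S_const_mul, S_FF (α l') (M l') (KK M l') (KK_pos M l') (hα l') (hr l')]
  have hb : ∀ l', ‖S (F l') (n * KK M l) x - (if l' = l then S (F l) (n * KK M l) x else 0)‖ ≤
      F l' x + a l' := by
    intro l'
    rcases lt_trichotomy l' l with h | h | h
    · rw [if_neg h.ne, sub_zero, hval]
      have h1 : M l' ≤ n * KK M l / KK M l' := by
        rw [Nat.le_div_iff_mul_le (KK_pos M l')]
        have := KK_lt M h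
        calc M l' * KK M l' ≤ KK M l' * (M l' + 1) := by nlinarith
          _ ≤ KK M l := this
          _ ≤ n * KK M l := Nat.le_mul_of_pos_left _ hn
      rw [PS_of_le (α l') (M l') _ (hα l') h1]
      have h2 : PS (α l') (M l') (KK M l' * x) = ((PS (α l') (M l') (KK M l' * x)).re : ℂ) := by
        refine Complex.ext rfl ?_
        rw [hr]; simp
      rw [h2, norm_mul, Complex.norm_real, Complex.norm_real, Real.norm_of_nonneg (ha l').le,
        Real.norm_of_nonneg (h0 _ _)]
      have h3 : F l' x = a l' * (PS (α l') (M l') (KK M l' * x)).re := rfl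
      rw [h3]
      linarith [ha l']
    · subst h
      rw [if_pos rfl, sub_self, norm_zero]
      exact add_nonneg (hF0 _ _) (ha _).le
    · rw [if_neg h.ne', sub_zero, hval]
      have h1 : n * KK M l / KK M l' = 0 := by
        rw [Nat.div_eq_zero_iff]
        right
        have h4 := KK_lt M h
        have h5 : n * KK M l ≤ M l * KK M l := Nat.mul_le_mul_right _ hn'
        have h6 := KK_pos M l
        nlinarith
      rw [h1, PS_zero, hα0, mul_one, Complex.norm_real, Real.norm_of_nonneg (ha l').le]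
      linarith [hF0 l' x]
  have hsub := hS.sub (hasSum_ite_eq l (S (F l) (n * KK M l) x))
  have hle := tsum_of_norm_bounded (hx.hasSum.add hsa.hasSum) hb
  rw [hsub.tsum_eq] at hle
  have h7 : ‖S (F l) (n * KK M l) x‖ = a l * ‖PS (α l) n (KK M l * x)‖ := by
    rw [hval, Nat.mul_div_cancel _ (KK_pos M l), norm_mul, Complex.norm_real,
      Real.norm_of_nonneg (ha l).le]
  have h8 := norm_sub_norm_le (S (F l) (n * KK M l) x) (S (fun x => ∑' l', F l' x) (n * KK M l) x)
  rw [norm_sub_rev] at h8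
  have h9 : ‖S (fun x => ∑' l', F l' x) (n * KK M l) x - S (F l) (n * KK M l) x‖ ≤
      ∑' l', F l' x + ∑' l', a l' := hle
  rw [← h7]
  linarith

theorem main (φ : ℝ → ℝ) (hφ : MonotoneOn φ (Set.Ici 0)) (hφ0 : ∀ u, 0 ≤ u → 0 ≤ φ u)
    (ho : φ =o[Filter.atTop] fun u => u * Real.sqrt (Real.log u)) :
    ∃ f : ℝ → ℝ, Measurable f ∧ (∀ x, 0 ≤ f x) ∧ (∀ x, f (x + 2 * Real.pi) = f x) ∧
      IntervalIntegrable f volume 0 (2 * Real.pi) ∧
      IntervalIntegrable (fun x => φ (f x)) volume 0 (2 * Real.pi) ∧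
      ∀ᵐ x ∂(volume.restrict (Set.Ioc 0 (2 * Real.pi))),
        ¬ BddAbove (Set.range fun N : ℕ => ‖S f N x‖) := by
  have hpi := Real.pi_pos
  -- the blocks
  have hblock := fun l : ℕ => block ((1 / 2 : ℝ) ^ l) (by positivity)
  choose c hc C m0 hbl using hblock
  -- the growth function
  have hgrow := phi_growth φ hφ hφ0 ho
  choose A0 hA0 hA1 using hgrow
  set A : ℝ → ℝ := fun η => if h : 0 < η then A0 η h else 0 with hAdef
  have hA : ∀ η, 0 < η → 0 ≤ A η := fun η h => by rw [hAdef]; simp only [dif_pos h]; exact hA0 η h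
  have hAg : ∀ η, 0 < η → ∀ u, 0 ≤ u → φ u ≤ A η + η * u * Real.sqrt (Real.log (2 + u)) :=
    fun η h => by rw [hAdef]; simp only [dif_pos h]; exact hA1 η h
  obtain ⟨a, η, m, ha, hη, ha4, hm0, ham, hpar⟩ := exists_params c hc C m0 A hA
  choose M α hα hα0 hreal hmeas using fun l => hbl l (m l) (hm0 l)
  have hr : ∀ l x, (PS (α l) (M l) x).im = 0 := fun l x => (hreal l x).1
  have h0 : ∀ l x, 0 ≤ (PS (α l) (M l) x).re := fun l x => (hreal l x).2.1
  have hB : ∀ l x, (PS (α l) (M l) x).re ≤ 2 ^ (C l * m l ^ 2) := fun l x => (hreal l x).2.2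
  have hsa : Summable a := by
    refine Summable.of_nonneg_of_le (fun l => (ha l).le) ha4 ?_
    exact (summable_nat_add_iff 1).2 (summable_geometric_of_lt_one (by norm_num) (by norm_num))
  have hint : ∀ l, ∫ x in (0 : ℝ)..(2 * Real.pi), a l * FF (α l) (M l) (KK M l) x =
      a l * (2 * Real.pi) := fun l => by
    rw [intervalIntegral.integral_const_mul,
      integral_FF (α l) (M l) (KK M l) (KK_pos M l) (hα l) (hr l) (hα0 l)]
  have hs : Summable fun l => ∫ x in (0 : ℝ)..(2 * Real.pi),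
      a l * FF (α l) (M l) (KK M l) x := by
    simp_rw [hint]
    exact hsa.mul_right _
  set F : ℕ → ℝ → ℝ := fun l x => a l * FF (α l) (M l) (KK M l) x with hF
  have hFc : ∀ l, Continuous (F l) := fun l => continuous_const.mul (continuous_FF _ _ _)
  have hF0 : ∀ l x, 0 ≤ F l x := fun l x => mul_nonneg (ha l).le (h0 l _)
  obtain ⟨hmeasf, hintf, hsumx, -⟩ := sum_facts F hFc hF0 hs
  have hfin : volume (Set.Ioc 0 (2 * Real.pi)) ≠ ⊤ := measure_Ioc_lt_top.ne
  refine ⟨fun x => ∑' l, F l x, hmeasf, fun x => tsum_nonneg fun l => hF0 l x, fun x => ?_, hintf,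
    ?_, ?_⟩
  · refine tsum_congr fun l => ?_
    simp only [hF, FF_periodic]
  · -- the Orlicz condition
    have hφm : Measurable fun x => φ (∑' l, F l x) := by
      have h1 : Monotone fun u => φ (max u 0) := fun u v huv =>
        hφ (Set.mem_Ici.2 (le_max_right _ _)) (Set.mem_Ici.2 (le_max_right _ _))
          (max_le_max_right _ huv)
      have h2 : (fun x => φ (∑' l, F l x)) = (fun u => φ (max u 0)) ∘ fun x => ∑' l, F l x := by
        funext x
        simp only [Function.comp]
        rw [max_eq_left (tsum_nonneg fun l => hF0 l x)]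
      rw [h2]
      exact h1.measurable.comp hmeasf
    rw [intervalIntegrable_iff_integrableOn_Ioc_of_le (by positivity)]
    refine ⟨hφm.aestronglyMeasurable, ?_⟩
    rw [hasFiniteIntegral_iff_ofReal
      (Filter.Eventually.of_forall fun x => hφ0 _ (tsum_nonneg fun l => hF0 l x))]
    have hterm : ∀ l, ∫⁻ x in Set.Ioc 0 (2 * Real.pi),
        (if 1 < 2 ^ (l + 1) * F l x then ENNReal.ofReal (φ (2 ^ (l + 1) * F l x)) else 0) ≤
          ENNReal.ofReal (2 * Real.pi) * ENNReal.ofReal ((1 / 2 : ℝ) ^ l) := by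
      intro l
      have h1 := phi_term φ hφ hφ0 (A (η l)) (η l) (hA _ (hη l)) (hη l).le (hAg _ (hη l))
        (fun x => 2 ^ (l + 1) * F l x) (continuous_const.mul (hFc l))
        (fun x => mul_nonneg (by positivity) (hF0 l x)) (2 ^ (l + 1) * a l * 2 ^ (C l * m l ^ 2))
        (fun x => by
          have := mul_le_mul_of_nonneg_left (hB l (KK M l * x)) (ha l).le
          have h2 : F l x = a l * (PS (α l) (M l) (KK M l * x)).re := rfl
          simp only [h2]
          rw [mul_assoc]
          exact mul_le_mul_of_nonneg_left this (by positivity))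
      refine h1.trans ?_
      rw [← ENNReal.ofReal_mul (by positivity)]
      refine ENNReal.ofReal_le_ofReal ?_
      rw [intervalIntegral.integral_const_mul, hint]
      have h3 := hpar l
      calc _ = 2 * Real.pi * (2 ^ (l + 1) * a l * (A (η l) + η l *
            Real.sqrt (Real.log (2 + 2 ^ (l + 1) * a l * 2 ^ (C l * m l ^ 2))))) := by ring
        _ ≤ 2 * Real.pi * (1 / 2 : ℝ) ^ l := mul_le_mul_of_nonneg_left h3 (by positivity)
    have hmeast : ∀ l, Measurable fun x =>
        (if 1 < 2 ^ (l + 1) * F l x then ENNReal.ofReal (φ (2 ^ (l + 1) * F l x)) else 0) := by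
      intro l
      have h1 : Monotone fun u => φ (max u 0) := fun u v huv =>
        hφ (Set.mem_Ici.2 (le_max_right _ _)) (Set.mem_Ici.2 (le_max_right _ _))
          (max_le_max_right _ huv)
      have h2 : (fun x => φ (2 ^ (l + 1) * F l x)) =
          (fun u => φ (max u 0)) ∘ fun x => 2 ^ (l + 1) * F l x := by
        funext x
        simp only [Function.comp]
        rw [max_eq_left (mul_nonneg (by positivity) (hF0 l x))]
      have h3 : Measurable fun x => φ (2 ^ (l + 1) * F l x) := by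
        rw [h2]
        exact h1.measurable.comp ((continuous_const.mul (hFc l)).measurable)
      refine Measurable.ite ?_ h3.ennreal_ofReal measurable_const
      exact measurableSet_lt measurable_const (continuous_const.mul (hFc l)).measurable
    calc ∫⁻ x in Set.Ioc 0 (2 * Real.pi), ENNReal.ofReal (φ (∑' l, F l x))
        ≤ ∫⁻ x in Set.Ioc 0 (2 * Real.pi), (ENNReal.ofReal (φ 1) + ∑' l,
          (if 1 < 2 ^ (l + 1) * F l x then ENNReal.ofReal (φ (2 ^ (l + 1) * F l x)) else 0)) :=
          lintegral_mono fun x => phi_tsum_le φ hφ hφ0 (fun l => F l x) (fun l => hF0 l x)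
      _ = ENNReal.ofReal (φ 1) * volume (Set.Ioc 0 (2 * Real.pi)) +
          ∑' l, ∫⁻ x in Set.Ioc 0 (2 * Real.pi),
            (if 1 < 2 ^ (l + 1) * F l x then ENNReal.ofReal (φ (2 ^ (l + 1) * F l x)) else 0) := by
          rw [lintegral_add_left measurable_const, setLIntegral_const,
            lintegral_tsum fun l => (hmeast l).aemeasurable]
      _ ≤ ENNReal.ofReal (φ 1) * volume (Set.Ioc 0 (2 * Real.pi)) +
          ∑' l : ℕ, ENNReal.ofReal (2 * Real.pi) * ENNReal.ofReal ((1 / 2 : ℝ) ^ l) := by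
          gcongr with l
          exact hterm l
      _ < ⊤ := by
          refine ENNReal.add_lt_top.2 ⟨ENNReal.mul_lt_top ENNReal.ofReal_lt_top hfin.lt_top, ?_⟩
          rw [ENNReal.tsum_mul_left]
          refine ENNReal.mul_lt_top ENNReal.ofReal_lt_top ?_
          rw [← ENNReal.ofReal_tsum_of_nonneg (fun l => by positivity)
            (summable_geometric_of_lt_one (by norm_num) (by norm_num))]
          exact ENNReal.ofReal_lt_top
  · -- divergence
    set E : ℕ → Set ℝ := fun l => {y : ℝ | ∀ n : ℕ, 1 ≤ n → n ≤ M l →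
      ‖PS (α l) n y‖ < c l * m l} with hE
    have hEm : ∀ l, MeasurableSet (E l) := by
      intro l
      have : E l = ⋂ n : ℕ, ⋂ _ : 1 ≤ n, ⋂ _ : n ≤ M l, {y : ℝ | ‖PS (α l) n y‖ < c l * m l} := by
        ext y; simp [hE]
      rw [this]
      refine MeasurableSet.iInter fun n => MeasurableSet.iInter fun _ =>
        MeasurableSet.iInter fun _ => ?_
      exact (isOpen_lt (continuous_PS _ _).norm continuous_const).measurableSet
    have hEp : ∀ l x, x + 2 * Real.pi ∈ E l ↔ x ∈ E l := by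
      intro l x
      simp only [hE, Set.mem_ofPred_eq, PS_periodic]
    have hvol : ∀ l, volume {x : ℝ | x ∈ Set.Ioc 0 (2 * Real.pi) ∧ (KK M l : ℝ) * x ∈ E l} ≤
        ENNReal.ofReal ((1 / 2 : ℝ) ^ l) := by
      intro l
      rw [meas_dilate (E l) (hEm l) (hEp l) (KK M l) (KK_pos M l)]
      refine (measure_mono ?_).trans (hmeas l)
      rintro x ⟨hx, hxE⟩
      exact ⟨⟨hx.1.le, hx.2⟩, hxE⟩
    have hsumv : ∑' l, volume {x : ℝ | x ∈ Set.Ioc 0 (2 * Real.pi) ∧
        (KK M l : ℝ) * x ∈ E l} ≠ ⊤ := by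
      refine ne_top_of_le_ne_top ?_ (ENNReal.tsum_le_tsum hvol)
      rw [← ENNReal.ofReal_tsum_of_nonneg (fun l => by positivity)
        (summable_geometric_of_lt_one (by norm_num) (by norm_num))]
      exact ENNReal.ofReal_ne_top
    have hbc := ae_restrict_of_ae (s := Set.Ioc 0 (2 * Real.pi))
      (ae_eventually_notMem hsumv)
    filter_upwards [hbc, hsumx, ae_restrict_mem measurableSet_Ioc] with x hx1 hx2 hx3
    rintro ⟨R, hR⟩
    obtain ⟨l0, hl0⟩ := Filter.eventually_atTop.1 hx1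
    set T : ℝ := ∑' l', F l' x + ∑' l', a l' with hT
    set l : ℕ := max l0 ⌈R + T⌉₊ with hl
    have hnot := hl0 l (le_max_left _ _)
    have h1 : ∃ n : ℕ, 1 ≤ n ∧ n ≤ M l ∧ c l * m l ≤ ‖PS (α l) n (KK M l * x)‖ := by
      by_contra hcon
      push Not at hcon
      exact hnot ⟨hx3, hcon⟩
    obtain ⟨n, hn1, hn2, hn3⟩ := h1
    have h2 := lower a ha hsa M α hα hα0 hr h0 hs x hx2 l n hn1 hn2
    have h3 : ‖S (fun x => ∑' l', F l' x) (n * KK M l) x‖ ≤ R := hR ⟨n * KK M l, rfl⟩
    have h4 : (l : ℝ) + 1 ≤ a l * ‖PS (α l) n (KK M l * x)‖ :=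
      (ham l).trans (mul_le_mul_of_nonneg_left hn3 (ha l).le)
    have h5 : R + T ≤ l := (Nat.le_ceil _).trans (by exact_mod_cast le_max_right _ _)
    have h6 : a l * ‖PS (α l) n (KK M l * x)‖ - T ≤ R := h2.trans h3
    linarith

end P091
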