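import Vale.Agent.Lib.P091.GlueA

/-! # P091 module GlueA2: dilated trigonometric polynomials, continued -/

open Finset MeasureTheory

namespace P091

/-- partial sums of a dilated trigonometric polynomial (from `fc_FF`: `k = K k'`, `|k'| ≤ N / K`) -/
theorem S_FF (α : ℤ → ℂ) (M K : ℕ) (hK : 1 ≤ K) (hα : ∀ k : ℤ, (M : ℤ) < |k| → α k = 0)
    (hr : ∀ x, (PS α M x).im = 0) (N : ℕ) (x : ℝ) :
    S (FF α M K) N x = PS α (N / K) (K * x) := by
  have hK0 : (0 : ℤ) < K := by exact_mod_cast hK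
  unfold S PS
  simp only [fc_FF α M K hK hα hr]
  symm
  refine Finset.sum_of_injOn (fun k : ℤ => (K : ℤ) * k) ?_ ?_ ?_ ?_
  · intro a _ b _ hab
    exact mul_left_cancel₀ hK0.ne' hab
  · intro k hk
    simp only [Finset.coe_Icc, Set.mem_Icc] at hk ⊢
    obtain ⟨h1, h2⟩ := hk
    have h3 : ((N / K : ℕ) : ℤ) * K ≤ N := by
      exact_mod_cast Nat.div_mul_le_self N K
    constructor
    · nlinarith
    · nlinarith
  · intro k hk hk'
    by_cases hd : (K : ℤ) ∣ k
    · exfalso
      obtain ⟨c, rfl⟩ := hd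
      apply hk'
      refine ⟨c, ?_, rfl⟩
      simp only [Finset.coe_Icc, Set.mem_Icc, Finset.mem_Icc] at hk ⊢
      obtain ⟨h1, h2⟩ := hk
      push_cast
      constructor
      · rw [neg_le]
        apply Int.le_ediv_of_mul_le hK0
        linarith
      · apply Int.le_ediv_of_mul_le hK0
        linarith
    · simp [hd]
  · intro k _
    rw [if_pos (dvd_mul_right _ _), Int.mul_ediv_cancel_left _ hK0.ne']
    push_cast
    congr 2
    ring

/-- the integral of a dilated polynomial with mean one (from `fc_FF` with `k = 0`) -/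
theorem integral_FF (α : ℤ → ℂ) (M K : ℕ) (hK : 1 ≤ K) (hα : ∀ k : ℤ, (M : ℤ) < |k| → α k = 0)
    (hr : ∀ x, (PS α M x).im = 0) (h0 : α 0 = 1) :
    ∫ x in (0 : ℝ)..(2 * Real.pi), FF α M K x = 2 * Real.pi := by
  have h := fc_FF α M K hK hα hr 0
  rw [if_pos (dvd_zero _), Int.zero_ediv, h0] at h
  unfold fc at h
  simp only [Int.cast_zero, zero_mul, neg_zero, Complex.exp_zero, mul_one] at h
  rw [intervalIntegral.integral_ofReal] at h
  have h2 : (1 / (2 * Real.pi)) * ∫ x in (0 : ℝ)..(2 * Real.pi), FF α M K x = 1 := by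
    exact_mod_cast h
  have hpi : (0 : ℝ) < 2 * Real.pi := by positivity
  field_simp at h2
  linarith

end P091
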