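import Vale.Agent.Lib.P091.Defs

/-! # P091 module HashA: elementary facts on positions -/

open Finset

namespace P091

theorem hashA_pos_ge (q : ℕ) (g : ℕ → ℕ → ℕ) (l a : ℕ) : l * q ≤ pos q g l a :=
  Nat.le_add_right _ _

theorem hashA_pos_lt (q : ℕ) (g : ℕ → ℕ → ℕ) (hg : ∀ l a, g l a < q) (l a : ℕ) :
    pos q g l a + 1 ≤ (l + 1) * q := by
  have h := hg l (a / 2 ^ (l + 1))
  unfold pos
  rw [add_mul, one_mul]
  omega

theorem hashA_sum_lt (m q : ℕ) (g : ℕ → ℕ → ℕ) (hg : ∀ l a, g l a < q) (i : ℕ) :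
    ∑ l ∈ range m, 2 ^ pos q g l i < 2 ^ (m * q) := by
  induction m with
  | zero => simp
  | succ m ih =>
    rw [sum_range_succ]
    have h1 : 2 ^ (m * q) ≤ 2 ^ pos q g m i :=
      Nat.pow_le_pow_right (by norm_num) (hashA_pos_ge q g m i)
    have h2 : 2 ^ (pos q g m i + 1) ≤ 2 ^ ((m + 1) * q) :=
      Nat.pow_le_pow_right (by norm_num) (hashA_pos_lt q g hg m i)
    rw [pow_succ] at h2
    omega

theorem hashA_sum_le (m q : ℕ) (g : ℕ → ℕ → ℕ) (hg : ∀ l a, g l a < q) (j : ℕ) :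
    ∑ l ∈ range m, (1 / 2 : ℝ) ^ (pos q g l j + 1) ≤ 1 - (1 / 2) ^ (m * q) := by
  induction m with
  | zero => simp
  | succ m ih =>
    rw [sum_range_succ]
    have h1 : (1 / 2 : ℝ) ^ pos q g m j ≤ (1 / 2) ^ (m * q) :=
      pow_le_pow_of_le_one (by norm_num) (by norm_num) (hashA_pos_ge q g m j)
    have h2 : (1 / 2 : ℝ) ^ ((m + 1) * q) ≤ (1 / 2) ^ (pos q g m j + 1) :=
      pow_le_pow_of_le_one (by norm_num) (by norm_num) (hashA_pos_lt q g hg m j)
    have h3 : (1 / 2 : ℝ) ^ (pos q g m j + 1) = (1 / 2) ^ pos q g m j * (1 / 2) := pow_succ _ _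
    linarith

/-- `pos q g l a ∈ [l q, (l+1) q)`, so the positions of different levels are different; sums of
distinct powers of two. -/
theorem freq_lt (m q : ℕ) (g : ℕ → ℕ → ℕ) (hg : ∀ l a, g l a < q) (i : ℕ) :
    freq m q g i < 2 ^ (m * q) :=
  lt_of_le_of_lt (sum_le_sum_of_subset (filter_subset _ _)) (hashA_sum_lt m q g hg i)

theorem tau_nonneg (m q : ℕ) (g : ℕ → ℕ → ℕ) (j : ℕ) : 0 ≤ tau m q g j :=
  sum_nonneg fun _ _ => by positivity

theorem tau_lt_one (m q : ℕ) (g : ℕ → ℕ → ℕ) (hg : ∀ l a, g l a < q) (j : ℕ) :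
    tau m q g j < 1 := by
  have h1 : tau m q g j ≤ ∑ l ∈ range m, (1 / 2 : ℝ) ^ (pos q g l j + 1) :=
    sum_le_sum_of_subset_of_nonneg (filter_subset _ _) fun _ _ _ => by positivity
  have h2 := hashA_sum_le m q g hg j
  have h3 : (0 : ℝ) < (1 / 2) ^ (m * q) := by positivity
  linarith

theorem pow_mul_tau (m q : ℕ) (g : ℕ → ℕ → ℕ) (hg : ∀ l a, g l a < q) (j : ℕ) :
    ∃ z : ℕ, 2 ^ (m * q) * tau m q g j = z := by
  refine ⟨∑ l ∈ Os m j, 2 ^ (m * q - (pos q g l j + 1)), ?_⟩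
  unfold tau
  push_cast
  rw [mul_sum]
  refine sum_congr rfl fun l hl => ?_
  have hl' : l < m := mem_range.1 (mem_of_mem_filter l hl)
  have h1 : pos q g l j + 1 ≤ m * q :=
    (hashA_pos_lt q g hg l j).trans (Nat.mul_le_mul_right q hl')
  rw [one_div, inv_pow, ← div_eq_mul_inv, div_eq_iff (by positivity), ← pow_add,
    Nat.sub_add_cancel h1]

end P091
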