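import Vale.Agent.Lib.P091.Defs

/-! # P091 module HashB: averaging over random hash functions -/

open Finset

namespace P091

/-- the hash function of a point of the product space -/
def toG {m q : ℕ} (ω : Fin m × Fin (2 ^ m) → Fin q) (l a : ℕ) : ℕ :=
  if h : l < m ∧ a < 2 ^ m then (ω (⟨l, h.1⟩, ⟨a, h.2⟩)).1 else 0

theorem toG_lt {m q : ℕ} (hq : 0 < q) (ω : Fin m × Fin (2 ^ m) → Fin q) (l a : ℕ) :
    toG ω l a < q := by
  unfold toG; split_ifs with h
  · exact (ω _).2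
  · exact hq

/-- Averaging over one coordinate `c' ≠ c`:
`∑ ω, h (ω c) (ω c') = (1/q) ∑ ω, ∑ b, h (ω c) b ≤ (B/q) |Ω|`. -/
theorem avg_pair {ι : Type*} [Fintype ι] [DecidableEq ι] (q : ℕ) (hq : 0 < q) (c c' : ι)
    (hc : c ≠ c') (h : Fin q → Fin q → ℝ) (B : ℝ) (hB : ∀ a, ∑ b, h a b ≤ B) :
    ∑ ω : ι → Fin q, h (ω c) (ω c') ≤ (B / q) * Fintype.card (ι → Fin q) := by
  have hq' : (q : ℝ) ≠ 0 := by positivity
  let e : (ι → Fin q) ≃ Fin q × ({j // j ≠ c'} → Fin q) := Equiv.funSplitAt c' (Fin q)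
  have h1 : ∑ ω : ι → Fin q, h (ω c) (ω c')
      = ∑ p : Fin q × ({j // j ≠ c'} → Fin q), h (p.2 ⟨c, hc⟩) p.1 := by
    refine Fintype.sum_equiv e _ _ ?_
    intro ω
    rfl
  have h2 : (Fintype.card (ι → Fin q) : ℝ) = q * Fintype.card ({j // j ≠ c'} → Fin q) := by
    rw [Fintype.card_congr e, Fintype.card_prod, Fintype.card_fin]
    push_cast
    ring
  rw [h1, Fintype.sum_prod_type_right, h2]
  calc ∑ y : {j // j ≠ c'} → Fin q, ∑ x : Fin q, h (y ⟨c, hc⟩) x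
      ≤ ∑ _y : {j // j ≠ c'} → Fin q, B := Finset.sum_le_sum (fun y _ => hB _)
    _ = (Fintype.card ({j // j ≠ c'} → Fin q) : ℝ) * B := by
        rw [Finset.sum_const, nsmul_eq_mul, Finset.card_univ]
    _ = B / q * (q * Fintype.card ({j // j ≠ c'} → Fin q)) := by
        field_simp

end P091
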