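import Vale.Agent.Lib.P091.HashB

/-! # P091 module HashC: mean value of the error weight -/

open Finset

namespace P091

theorem hc_tail (s t q : ℕ) :
    ∑ b ∈ range q, (if s < t + b then (1 / 2 : ℝ) ^ (t + b - s + 1) else 0) ≤
      (1 / 2 : ℝ) ^ (t - s) - (1 / 2 : ℝ) ^ (t + q - s) := by
  induction q with
  | zero => simp
  | succ q ih =>
    rw [sum_range_succ]
    by_cases h : s < t + q
    · rw [if_pos h]
      have h1 : t + (q + 1) - s = (t + q - s) + 1 := by omega
      rw [h1]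
      have h2 : (1 / 2 : ℝ) ^ (t + q - s + 1) = (1 / 2 : ℝ) ^ (t + q - s) * (1 / 2) := pow_succ _ _
      linarith
    · rw [if_neg h]
      have h1 : t + q - s = 0 := by omega
      rw [h1, pow_zero] at ih
      have h2 : (1 / 2 : ℝ) ^ (t + (q + 1) - s) ≤ 1 := pow_le_one₀ (by norm_num) (by norm_num)
      linarith

theorem hc_geo (l m : ℕ) :
    ∑ l' ∈ range m, (if l ≤ l' then (1 / 2 : ℝ) ^ (l' - l) else 0) ≤
      2 - 2 * (1 / 2 : ℝ) ^ (m - l) := by
  induction m with
  | zero => simp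
  | succ m ih =>
    rw [sum_range_succ]
    by_cases h : l ≤ m
    · rw [if_pos h]
      have h1 : m + 1 - l = (m - l) + 1 := by omega
      rw [h1, pow_succ]
      linarith
    · rw [if_neg h]
      have h1 : m - l = 0 := by omega
      have h2 : m + 1 - l = 0 := by omega
      rw [h1] at ih
      rw [h2]
      linarith

theorem hc_toG {m q : ℕ} (ω : Fin m × Fin (2 ^ m) → Fin q) (l i : ℕ) (hl : l < m)
    (hi : i < 2 ^ m) :
    toG ω l (i / 2 ^ (l + 1)) =
      (ω (⟨l, hl⟩, ⟨i / 2 ^ (l + 1), lt_of_le_of_lt (Nat.div_le_self _ _) hi⟩)).1 := by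
  unfold toG
  rw [dif_pos ⟨hl, lt_of_le_of_lt (Nat.div_le_self _ _) hi⟩]

theorem hc_fcol (m q : ℕ) (hq : 0 < q) (i j : ℕ) (hi : i < 2 ^ m) (hj : j < 2 ^ m) :
    ∑ ω : Fin m × Fin (2 ^ m) → Fin q, (fcol m (toG ω) i j : ℝ) ≤
      (m / q : ℝ) * Fintype.card (Fin m × Fin (2 ^ m) → Fin q) := by
  have h0 : ∀ ω : Fin m × Fin (2 ^ m) → Fin q, (fcol m (toG ω) i j : ℝ) =
      ∑ l ∈ Zs m i ∩ Os m j, (if i / 2 ^ (l + 1) ≠ j / 2 ^ (l + 1) ∧
        toG ω l (i / 2 ^ (l + 1)) = toG ω l (j / 2 ^ (l + 1)) then (1 : ℝ) else 0) := by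
    intro ω
    unfold fcol
    rw [Finset.card_filter]
    push_cast
    rfl
  simp_rw [h0]
  rw [Finset.sum_comm]
  have h1 : ∀ l ∈ Zs m i ∩ Os m j,
      ∑ ω : Fin m × Fin (2 ^ m) → Fin q, (if i / 2 ^ (l + 1) ≠ j / 2 ^ (l + 1) ∧
        toG ω l (i / 2 ^ (l + 1)) = toG ω l (j / 2 ^ (l + 1)) then (1 : ℝ) else 0) ≤
      (1 / q : ℝ) * Fintype.card (Fin m × Fin (2 ^ m) → Fin q) := by
    intro l hl
    have hlm : l < m := by
      rw [mem_inter, Zs, mem_filter, mem_range] at hl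
      exact hl.1.1
    by_cases h : i / 2 ^ (l + 1) = j / 2 ^ (l + 1)
    · rw [sum_eq_zero]
      · positivity
      · intro ω _
        rw [if_neg]
        rintro ⟨h2, -⟩
        exact h2 h
    · have h2 := avg_pair q hq
        ((⟨l, hlm⟩ : Fin m), (⟨i / 2 ^ (l + 1), lt_of_le_of_lt (Nat.div_le_self _ _) hi⟩ : Fin (2 ^ m)))
        ((⟨l, hlm⟩ : Fin m), (⟨j / 2 ^ (l + 1), lt_of_le_of_lt (Nat.div_le_self _ _) hj⟩ : Fin (2 ^ m)))
        (by
          intro h3
          rw [Prod.mk.injEq, Fin.mk.injEq] at h3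
          exact h (Fin.mk.inj h3.2))
        (fun a b => if a = b then 1 else 0) 1 (by
          intro a
          simp)
      refine le_trans (le_of_eq ?_) h2
      apply sum_congr rfl
      intro ω _
      rw [hc_toG ω l i hlm hi, hc_toG ω l j hlm hj]
      simp only [ne_eq, h, not_false_eq_true, true_and, Fin.ext_iff]
  refine le_trans (sum_le_sum h1) ?_
  rw [sum_const, nsmul_eq_mul]
  have h3 : ((Zs m i ∩ Os m j).card : ℝ) ≤ m := by
    have h4 : (Zs m i ∩ Os m j).card ≤ (range m).card := by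
      apply card_le_card
      intro l hl
      rw [mem_inter, Zs, mem_filter] at hl
      exact hl.1.1
    rw [card_range] at h4
    exact_mod_cast h4
  have h5 : (0 : ℝ) ≤ (1 / q : ℝ) * Fintype.card (Fin m × Fin (2 ^ m) → Fin q) := by positivity
  calc ((Zs m i ∩ Os m j).card : ℝ) * ((1 / q : ℝ) * Fintype.card (Fin m × Fin (2 ^ m) → Fin q))
      ≤ m * ((1 / q : ℝ) * Fintype.card (Fin m × Fin (2 ^ m) → Fin q)) :=
        mul_le_mul_of_nonneg_right h3 h5
    _ = (m / q : ℝ) * Fintype.card (Fin m × Fin (2 ^ m) → Fin q) := by ring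

theorem hc_term (m q : ℕ) (hq : 0 < q) (i j : ℕ) (hi : i < 2 ^ m) (hj : j < 2 ^ m)
    (l l' : ℕ) (hl : l < m) (hl' : l' < m) :
    ∑ ω : Fin m × Fin (2 ^ m) → Fin q,
      (if pos q (toG ω) l i < pos q (toG ω) l' j then
        (1 / 2 : ℝ) ^ (pos q (toG ω) l' j - pos q (toG ω) l i + 1) else 0) ≤
      ((if l ≤ l' then (1 / 2 : ℝ) ^ (l' - l) else 0) / q) *
        Fintype.card (Fin m × Fin (2 ^ m) → Fin q) := by
  unfold pos
  by_cases hll : l ≤ l'
  swap
  · rw [if_neg hll, zero_div, zero_mul, sum_eq_zero]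
    intro ω _
    rw [if_neg]
    have h1 := toG_lt hq ω l' (j / 2 ^ (l' + 1))
    have h2 : (l' + 1) * q ≤ l * q := Nat.mul_le_mul_right _ (by omega)
    rw [add_mul, one_mul] at h2
    omega
  rw [if_pos hll]
  by_cases hc : ((⟨l, hl⟩ : Fin m), (⟨i / 2 ^ (l + 1), lt_of_le_of_lt (Nat.div_le_self _ _) hi⟩ : Fin (2 ^ m)))
      = ((⟨l', hl'⟩ : Fin m), (⟨j / 2 ^ (l' + 1), lt_of_le_of_lt (Nat.div_le_self _ _) hj⟩ : Fin (2 ^ m)))
  · rw [sum_eq_zero]
    · positivity
    · intro ω _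
      rw [hc_toG ω l i hl hi, hc_toG ω l' j hl' hj, hc]
      rw [Prod.mk.injEq, Fin.mk.injEq] at hc
      rw [hc.1, if_neg (lt_irrefl _)]
  · have h2 := avg_pair q hq _ _ hc
      (fun a b => if l * q + a.1 < l' * q + b.1 then
        (1 / 2 : ℝ) ^ (l' * q + b.1 - (l * q + a.1) + 1) else 0) ((1 / 2 : ℝ) ^ (l' - l)) (by
        intro a
        rw [Fin.sum_univ_eq_sum_range (fun b : ℕ => if l * q + a.1 < l' * q + b then
          (1 / 2 : ℝ) ^ (l' * q + b - (l * q + a.1) + 1) else 0) q]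
        have h3 := hc_tail (l * q + a.1) (l' * q) q
        have h4 : (0 : ℝ) ≤ (1 / 2 : ℝ) ^ (l' * q + q - (l * q + a.1)) := by positivity
        have h5 : (1 / 2 : ℝ) ^ (l' * q - (l * q + a.1)) ≤ (1 / 2 : ℝ) ^ (l' - l) := by
          apply pow_le_pow_of_le_one (by norm_num) (by norm_num)
          rcases Nat.eq_or_lt_of_le hll with h6 | h6
          · subst h6
            simp
          · obtain ⟨k, rfl⟩ : ∃ k, l' = l + 1 + k := ⟨l' - (l + 1), by omega⟩
            have h7 : (l + 1 + k) * q = l * q + q + k * q := by ring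
            have h8 : k * 1 ≤ k * q := Nat.mul_le_mul_left _ hq
            have h9 := a.2
            rw [h7]
            omega
        linarith)
    refine le_trans (le_of_eq ?_) h2
    apply sum_congr rfl
    intro ω _
    rw [hc_toG ω l i hl hi, hc_toG ω l' j hl' hj]

/-- Mean value of the error weight of a pair of different cells. By `avg_pair`:
`E fcol ≤ m / q` (for `l` with `i / 2^(l+1) ≠ j / 2^(l+1)` the two values are independent).
`E eps`: pairs `l' < l` give nothing (`P > P'`); pairs `l = l'` with the same prefix give nothing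
(`P = P'`); pairs `l = l'` with different prefixes: `∑_{b > a} 2^-(b-a+1) ≤ 1/2`; pairs `l < l'`:
`∑_b 2^-((l'-l) q + b - a + 1) ≤ 2^-((l'-l-1) q) / 2` as `a ≤ q - 1`, and
`∑_{l' > l} 2^-((l'-l-1) q) / 2 ≤ 1`. Total `≤ m/q + m/(2q) + m/q`. -/
theorem avg_ww (m q : ℕ) (hq : 0 < q) (i j : ℕ) (hi : i < 2 ^ m) (hj : j < 2 ^ m) (hij : i ≠ j) :
    ∑ ω : Fin m × Fin (2 ^ m) → Fin q, ww m q (toG ω) i j ≤
      (3 * m / q : ℝ) * Fintype.card (Fin m × Fin (2 ^ m) → Fin q) := by
  have _h := hij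
  unfold ww
  rw [sum_add_distrib]
  have h1 := hc_fcol m q hq i j hi hj
  have h2 : ∑ ω : Fin m × Fin (2 ^ m) → Fin q, eps m q (toG ω) i j ≤
      (2 * m / q : ℝ) * Fintype.card (Fin m × Fin (2 ^ m) → Fin q) := by
    unfold eps
    rw [sum_comm]
    have hC : (0 : ℝ) ≤ Fintype.card (Fin m × Fin (2 ^ m) → Fin q) := by positivity
    have h3 : ∀ l ∈ Zs m i, ∑ ω : Fin m × Fin (2 ^ m) → Fin q, ∑ l' ∈ Os m j,
        (if pos q (toG ω) l i < pos q (toG ω) l' j then
          (1 / 2 : ℝ) ^ (pos q (toG ω) l' j - pos q (toG ω) l i + 1) else 0) ≤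
        (2 / q : ℝ) * Fintype.card (Fin m × Fin (2 ^ m) → Fin q) := by
      intro l hl
      have hlm : l < m := by
        rw [Zs, mem_filter, mem_range] at hl
        exact hl.1
      rw [sum_comm]
      calc _ ≤ ∑ l' ∈ Os m j, ((if l ≤ l' then (1 / 2 : ℝ) ^ (l' - l) else 0) / q) *
            (Fintype.card (Fin m × Fin (2 ^ m) → Fin q) : ℝ) := by
            apply sum_le_sum
            intro l' hl'
            have hlm' : l' < m := by
              rw [Os, mem_filter, mem_range] at hl'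
              exact hl'.1
            exact hc_term m q hq i j hi hj l l' hlm hlm'
        _ ≤ ∑ l' ∈ range m, ((if l ≤ l' then (1 / 2 : ℝ) ^ (l' - l) else 0) / q) *
            (Fintype.card (Fin m × Fin (2 ^ m) → Fin q) : ℝ) := by
            apply sum_le_sum_of_subset_of_nonneg
            · exact filter_subset _ _
            · intro l' _ _
              positivity
        _ = ((∑ l' ∈ range m, (if l ≤ l' then (1 / 2 : ℝ) ^ (l' - l) else 0)) / q) *
            (Fintype.card (Fin m × Fin (2 ^ m) → Fin q) : ℝ) := by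
            rw [← sum_mul, ← sum_div]
        _ ≤ (2 / q : ℝ) * Fintype.card (Fin m × Fin (2 ^ m) → Fin q) := by
            apply mul_le_mul_of_nonneg_right _ hC
            apply div_le_div_of_nonneg_right _ (Nat.cast_nonneg q)
            have h4 := hc_geo l m
            have h5 : (0 : ℝ) ≤ (1 / 2 : ℝ) ^ (m - l) := by positivity
            linarith
    refine le_trans (sum_le_sum h3) ?_
    rw [sum_const, nsmul_eq_mul]
    have h6 : ((Zs m i).card : ℝ) ≤ m := by
      have h4 : (Zs m i).card ≤ (range m).card := card_le_card (filter_subset _ _)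
      rw [card_range] at h4
      exact_mod_cast h4
    have h7 : (0 : ℝ) ≤ (2 / q : ℝ) * Fintype.card (Fin m × Fin (2 ^ m) → Fin q) := by positivity
    calc ((Zs m i).card : ℝ) * ((2 / q : ℝ) * Fintype.card (Fin m × Fin (2 ^ m) → Fin q))
        ≤ m * ((2 / q : ℝ) * Fintype.card (Fin m × Fin (2 ^ m) → Fin q)) :=
          mul_le_mul_of_nonneg_right h6 h7
      _ = (2 * m / q : ℝ) * Fintype.card (Fin m × Fin (2 ^ m) → Fin q) := by ring
  calc _ ≤ (m / q : ℝ) * Fintype.card (Fin m × Fin (2 ^ m) → Fin q) +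
        (2 * m / q : ℝ) * Fintype.card (Fin m × Fin (2 ^ m) → Fin q) := add_le_add h1 h2
    _ = (3 * m / q : ℝ) * Fintype.card (Fin m × Fin (2 ^ m) → Fin q) := by ring

end P091
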