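import Vale.Agent.Lib.P091.HashC

/-! # P091 module HashD: a good hash function exists -/

open Finset

namespace P091

/-- Immediate from `avg_ww` by exchanging the sums (`Finset.exists_le_of_sum_le`). -/
theorem exists_hash (m q : ℕ) (hq : 0 < q) (U : ℕ → ℕ → ℝ) (hU : ∀ i j, 0 ≤ U i j)
    (hU0 : ∀ i, U i i = 0) :
    ∃ g : ℕ → ℕ → ℕ, (∀ l a, g l a < q) ∧
      ∑ i ∈ range (2 ^ m), ∑ j ∈ range (2 ^ m), U i j * ww m q g i j ≤
        (3 * m / q : ℝ) * ∑ i ∈ range (2 ^ m), ∑ j ∈ range (2 ^ m), U i j := by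
  have : Nonempty (Fin q) := ⟨⟨0, hq⟩⟩
  have key : ∑ ω : Fin m × Fin (2 ^ m) → Fin q,
      ∑ i ∈ range (2 ^ m), ∑ j ∈ range (2 ^ m), U i j * ww m q (toG ω) i j ≤
      ∑ ω : Fin m × Fin (2 ^ m) → Fin q,
        (3 * m / q : ℝ) * ∑ i ∈ range (2 ^ m), ∑ j ∈ range (2 ^ m), U i j := by
    rw [sum_comm]
    rw [sum_const, card_univ, nsmul_eq_mul, mul_sum, mul_sum]
    refine sum_le_sum fun i hi => ?_
    rw [sum_comm, mul_sum, mul_sum]
    refine sum_le_sum fun j hj => ?_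
    rw [← mul_sum]
    by_cases hij : i = j
    · subst hij
      simp [hU0]
    · have h := avg_ww m q hq i j (mem_range.1 hi) (mem_range.1 hj) hij
      calc U i j * ∑ ω : Fin m × Fin (2 ^ m) → Fin q, ww m q (toG ω) i j
          ≤ U i j * ((3 * m / q : ℝ) * Fintype.card (Fin m × Fin (2 ^ m) → Fin q)) :=
            mul_le_mul_of_nonneg_left h (hU i j)
        _ = _ := by ring
  obtain ⟨ω, -, hω⟩ := exists_le_of_sum_le (univ_nonempty) key
  refine ⟨toG ω, ?_, hω⟩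
  intro l a
  exact toG_lt hq ω l a

end P091
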