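import Vale.Agent.Lib.P091.Defs

/-! # P091 module KerA: the kernel -/

open Finset

namespace P091

theorem icc_step (n : ℕ) (f : ℤ → ℂ) :
    ∑ k ∈ Icc (-((n + 1 : ℕ) : ℤ)) ((n + 1 : ℕ) : ℤ), f k =
      ∑ k ∈ Icc (-(n : ℤ)) n, f k + f ((n : ℤ) + 1) + f (-((n : ℤ) + 1)) := by
  have h : Icc (-((n + 1 : ℕ) : ℤ)) ((n + 1 : ℕ) : ℤ) =
      insert (-((n : ℤ) + 1)) (insert ((n : ℤ) + 1) (Icc (-(n : ℤ)) n)) := by
    ext k
    simp only [mem_Icc, mem_insert, Nat.cast_add, Nat.cast_one]
    constructor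
    · intro h
      by_cases h1 : k = -((n : ℤ) + 1)
      · exact Or.inl h1
      · by_cases h2 : k = (n : ℤ) + 1
        · exact Or.inr (Or.inl h2)
        · refine Or.inr (Or.inr ⟨?_, ?_⟩) <;> omega
    · rintro (h | h | h) <;> constructor <;> omega
  rw [h, sum_insert, sum_insert]
  · ring
  · simp only [mem_Icc, not_and, not_le]
    intro _
    omega
  · simp only [mem_insert, mem_Icc, not_or, not_and, not_le]
    constructor
    · omega
    · intro _
      omega

/-- the Dirichlet kernel: `D_n(u) sin(u/2) = sin((n+1/2)u)`, induction on `n` -/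
theorem dirichlet (n : ℕ) (u : ℝ) (hu : Real.sin (u / 2) ≠ 0) :
    ∑ k ∈ Icc (-(n : ℤ)) n, Complex.exp (k * u * Complex.I) =
      ((Real.cos (u / 2) / Real.sin (u / 2) * Real.sin (n * u) + Real.cos (n * u) : ℝ) : ℂ) := by
  induction n with
  | zero => simp
  | succ n ih =>
    rw [icc_step, ih]
    have e1 : Complex.exp ((((n : ℤ) + 1 : ℤ) : ℂ) * u * Complex.I) +
        Complex.exp (((-((n : ℤ) + 1) : ℤ) : ℂ) * u * Complex.I) =
        ((2 * Real.cos (((n : ℝ) + 1) * u) : ℝ) : ℂ) := by
      push_cast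
      rw [Complex.two_cos]
      congr 2
      ring
    rw [add_assoc, e1, ← Complex.ofReal_add]
    congr 1
    have h1 : Real.sin (((n : ℝ) + 1) * u) = Real.sin ((n : ℝ) * u) * Real.cos u +
        Real.cos ((n : ℝ) * u) * Real.sin u := by
      rw [← Real.sin_add]; congr 1; ring
    have h2 : Real.cos (((n : ℝ) + 1) * u) = Real.cos ((n : ℝ) * u) * Real.cos u -
        Real.sin ((n : ℝ) * u) * Real.sin u := by
      rw [← Real.cos_add]; congr 1; ring
    have h3 : Real.sin u = 2 * Real.sin (u / 2) * Real.cos (u / 2) := by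
      rw [← Real.sin_two_mul]; congr 1; ring
    have h4 : Real.cos u = 1 - 2 * Real.sin (u / 2) ^ 2 := by
      have := Real.cos_two_mul (u / 2)
      have h5 := Real.sin_sq_add_cos_sq (u / 2)
      have h6 : 2 * (u / 2) = u := by ring
      rw [h6] at this
      rw [this]; linarith
    have h5 : Real.cos (u / 2) ^ 2 = 1 - Real.sin (u / 2) ^ 2 := by
      have h5 := Real.sin_sq_add_cos_sq (u / 2)
      linarith
    push_cast
    rw [h1, h2, h3, h4]
    clear h1 h2 h3 h4 e1 ih
    generalize Real.sin (u / 2) = a at *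
    generalize Real.cos (u / 2) = b at *
    generalize Real.sin ((n : ℝ) * u) = c at *
    generalize Real.cos ((n : ℝ) * u) = d at *
    field_simp
    linear_combination (-2 * d * a) * h5

/-- `|cot (π t)| ≤ 1 / (3 min t (1 - t))`: by symmetry `t ≤ 1/2`, and `tan x ≥ x`. -/
theorem cot_upper_aux (t : ℝ) (h0 : 0 < t) (h1 : t ≤ 1 / 2) :
    |Real.cos (Real.pi * t) / Real.sin (Real.pi * t)| ≤ 1 / (3 * t) := by
  have hpi := Real.pi_gt_three
  have hs : 0 < Real.sin (Real.pi * t) :=
    Real.sin_pos_of_pos_of_lt_pi (by positivity) (by nlinarith)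
  have hc : 0 ≤ Real.cos (Real.pi * t) :=
    Real.cos_nonneg_of_neg_pi_div_two_le_of_le (by nlinarith) (by nlinarith)
  rw [abs_of_nonneg (by positivity), div_le_div_iff₀ hs (by positivity)]
  -- 3 t cos x ≤ sin x
  have key : Real.pi * t * Real.cos (Real.pi * t) ≤ Real.sin (Real.pi * t) := by
    rcases eq_or_lt_of_le h1 with h | h
    · have : Real.pi * t = Real.pi / 2 := by rw [h]; ring
      rw [this, Real.cos_pi_div_two, mul_zero, Real.sin_pi_div_two]
      exact zero_le_one
    · have hx : Real.pi * t < Real.pi / 2 := by nlinarith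
      have h2 := Real.lt_tan (x := Real.pi * t) (by positivity) hx
      have hc' : 0 < Real.cos (Real.pi * t) :=
        Real.cos_pos_of_mem_Ioo ⟨by nlinarith, hx⟩
      rw [Real.tan_eq_sin_div_cos, lt_div_iff₀ hc'] at h2
      exact h2.le
  nlinarith [mul_nonneg h0.le hc]

theorem cot_upper (t : ℝ) (h0 : 0 < t) (h1 : t < 1) :
    |Real.cos (Real.pi * t) / Real.sin (Real.pi * t)| ≤ 1 / (3 * min t (1 - t)) := by
  rcases le_total t (1 / 2) with h | h
  · rw [min_eq_left (by linarith)]
    exact cot_upper_aux t h0 h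
  · rw [min_eq_right (by linarith)]
    have := cot_upper_aux (1 - t) (by linarith) (by linarith)
    have e : Real.pi * (1 - t) = Real.pi - Real.pi * t := by ring
    rw [e, Real.cos_pi_sub, Real.sin_pi_sub, neg_div, abs_neg] at this
    exact this

/-- `cot (π t) ≥ 1 / (4 t)` on `(0, 1/4]` (convexity of `tan`, or concavity of
`4 t cos (π t) - sin (π t)`...) -/
theorem cot_lower (t : ℝ) (h0 : 0 < t) (h1 : t ≤ 1 / 4) :
    1 / (4 * t) ≤ Real.cos (Real.pi * t) / Real.sin (Real.pi * t) := by
  have hpi := Real.pi_gt_three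
  have hpi4 := Real.pi_lt_four
  have hs : 0 < Real.sin (Real.pi * t) :=
    Real.sin_pos_of_pos_of_lt_pi (by positivity) (by nlinarith)
  rw [div_le_div_iff₀ (by positivity) hs, one_mul]
  -- sin (π t) ≤ cos (π t) * (4 t)
  set h : ℝ → ℝ := fun t => 4 * t * Real.cos (Real.pi * t) - Real.sin (Real.pi * t) with hdef
  have hd1 : ∀ x, HasDerivAt h (4 * Real.cos (Real.pi * x) - 4 * x * (Real.sin (Real.pi * x) * Real.pi)
      - Real.cos (Real.pi * x) * Real.pi) x := by
    intro x
    have hx : HasDerivAt (fun x : ℝ => Real.pi * x) Real.pi x := by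
      simpa using (hasDerivAt_id x).const_mul Real.pi
    have h4 : HasDerivAt (fun x : ℝ => 4 * x) 4 x := by
      simpa using (hasDerivAt_id x).const_mul (4 : ℝ)
    have := (h4.mul hx.cos).sub hx.sin
    refine this.congr_deriv ?_
    ring
  have hd2 : ∀ x, HasDerivAt (fun x => 4 * Real.cos (Real.pi * x) - 4 * x * (Real.sin (Real.pi * x) * Real.pi)
      - Real.cos (Real.pi * x) * Real.pi) (-(8 - Real.pi) * Real.pi * Real.sin (Real.pi * x) -
        4 * x * Real.pi ^ 2 * Real.cos (Real.pi * x)) x := by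
    intro x
    have hx : HasDerivAt (fun x : ℝ => Real.pi * x) Real.pi x := by
      simpa using (hasDerivAt_id x).const_mul Real.pi
    have h4 : HasDerivAt (fun x : ℝ => 4 * x) 4 x := by
      simpa using (hasDerivAt_id x).const_mul (4 : ℝ)
    have := ((hx.cos.const_mul (4 : ℝ)).sub (h4.mul (hx.sin.mul_const Real.pi))).sub
      (hx.cos.mul_const Real.pi)
    refine this.congr_deriv ?_
    ring
  have hconc : ConcaveOn ℝ (Set.Icc (0 : ℝ) (1 / 4)) h := by
    apply concaveOn_of_deriv2_nonpos (convex_Icc _ _)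
    · exact fun x _ => (hd1 x).continuousAt.continuousWithinAt
    · exact fun x _ => (hd1 x).differentiableAt.differentiableWithinAt
    · have : deriv h = fun x => 4 * Real.cos (Real.pi * x) - 4 * x * (Real.sin (Real.pi * x) * Real.pi)
          - Real.cos (Real.pi * x) * Real.pi := funext fun x => (hd1 x).deriv
      rw [this]
      exact fun x _ => (hd2 x).differentiableAt.differentiableWithinAt
    · intro x hx
      rw [interior_Icc] at hx
      have e1 : deriv h = fun x => 4 * Real.cos (Real.pi * x) - 4 * x * (Real.sin (Real.pi * x) * Real.pi)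
          - Real.cos (Real.pi * x) * Real.pi := funext fun x => (hd1 x).deriv
      have e2 : deriv^[2] h x = -(8 - Real.pi) * Real.pi * Real.sin (Real.pi * x) -
        4 * x * Real.pi ^ 2 * Real.cos (Real.pi * x) := by
        simp only [Function.iterate_succ, Function.iterate_zero, Function.comp, id]
        rw [e1]
        exact (hd2 x).deriv
      rw [e2]
      have hx0 : 0 < x := hx.1
      have hx1 : x < 1 / 4 := hx.2
      have hs : 0 < Real.sin (Real.pi * x) :=
        Real.sin_pos_of_pos_of_lt_pi (by positivity) (by nlinarith)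
      have hc : 0 ≤ Real.cos (Real.pi * x) :=
        Real.cos_nonneg_of_neg_pi_div_two_le_of_le (by nlinarith) (by nlinarith)
      have p1 : 0 ≤ (8 - Real.pi) * Real.pi * Real.sin (Real.pi * x) :=
        mul_nonneg (mul_nonneg (by linarith) (by linarith)) hs.le
      have p2 : 0 ≤ 4 * x * Real.pi ^ 2 * Real.cos (Real.pi * x) := by positivity
      linarith
  have hh0 : h 0 = 0 := by simp [hdef]
  have hh1 : h (1 / 4) = 0 := by
    simp only [hdef]
    have : Real.pi * (1 / 4) = Real.pi / 4 := by ring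
    rw [this, Real.cos_pi_div_four, Real.sin_pi_div_four]
    ring
  have m0 : (0 : ℝ) ∈ Set.Icc (0 : ℝ) (1 / 4) := by constructor <;> norm_num
  have m1 : (1 / 4 : ℝ) ∈ Set.Icc (0 : ℝ) (1 / 4) := by constructor <;> norm_num
  have hc := hconc.2 m0 m1 (show (0 : ℝ) ≤ 1 - 4 * t by linarith) (show (0 : ℝ) ≤ 4 * t by linarith)
    (by ring)
  rw [hh0, hh1] at hc
  have e : (1 - 4 * t) • (0 : ℝ) + (4 * t) • (1 / 4 : ℝ) = t := by
    simp only [smul_eq_mul]; ring
  rw [e] at hc
  simp only [hdef, smul_eq_mul, mul_zero, add_zero] at hc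
  linarith

end P091
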