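import Vale.Agent.Lib.P091.HashA

/-! # P091 module PtA: phases of the frequencies -/

open Finset

namespace P091

/-- the frequencies of the cell `i` -/
def nn (m q : ℕ) (g : ℕ → ℕ → ℕ) (i b : ℕ) : ℕ := 2 ^ m * (freq m q g i + b * 2 ^ (m * q))

/-- phases: `n y_j = freq i * j + b 2^(mq) j + freq i * tau j + b 2^(mq) tau j`, and
`2^(mq) tau j` is an integer (`pow_mul_tau`) -/
theorem phase_nn (m q : ℕ) (g : ℕ → ℕ → ℕ) (hg : ∀ l a, g l a < q) (i j b : ℕ) :
    Complex.exp (2 * Real.pi * Complex.I * (nn m q g i b * yy m q g j : ℝ)) =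
      Complex.exp (2 * Real.pi * Complex.I * (freq m q g i * tau m q g j : ℝ)) := by
  obtain ⟨z, hz⟩ := pow_mul_tau m q g hg j
  rw [Complex.exp_eq_exp_iff_exists_int]
  refine ⟨((freq m q g i * j + b * 2 ^ (m * q) * j + b * z : ℕ) : ℤ), ?_⟩
  have h2 : (2 : ℝ) ^ m ≠ 0 := by positivity
  have key : (nn m q g i b * yy m q g j : ℝ) =
      freq m q g i * tau m q g j +
        ((freq m q g i * j + b * 2 ^ (m * q) * j + b * z : ℕ) : ℝ) := by
    unfold nn yy
    push_cast
    rw [← hz]
    field_simp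
    ring
  rw [key]
  push_cast
  ring

/-- one of the two frequencies is good: `|sin β| ≤ |sin (α + β)| + |sin α|` -/
theorem exists_b (m q : ℕ) (g : ℕ → ℕ → ℕ) (i : ℕ) (s : ℝ) : ∃ b : ℕ, b ≤ 1 ∧
    |Real.sin (2 * Real.pi * (2 ^ (m + m * q) * s))| / 2 ≤
      |Real.sin (2 * Real.pi * (nn m q g i b * s))| := by
  set α : ℝ := 2 * Real.pi * (nn m q g i 0 * s) with hα
  set β : ℝ := 2 * Real.pi * (2 ^ (m + m * q) * s) with hβ
  have h1 : 2 * Real.pi * (nn m q g i 1 * s) = α + β := by
    rw [hα, hβ]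
    unfold nn
    push_cast
    rw [pow_add]
    ring
  have hb : |Real.sin β| ≤ |Real.sin (α + β)| + |Real.sin α| := by
    have : Real.sin β = Real.sin (α + β) * Real.cos α - Real.cos (α + β) * Real.sin α := by
      rw [← Real.sin_sub]
      congr 1
      ring
    rw [this]
    calc |Real.sin (α + β) * Real.cos α - Real.cos (α + β) * Real.sin α|
        ≤ |Real.sin (α + β) * Real.cos α| + |Real.cos (α + β) * Real.sin α| := abs_sub _ _
      _ = |Real.sin (α + β)| * |Real.cos α| + |Real.cos (α + β)| * |Real.sin α| := by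
          rw [abs_mul, abs_mul]
      _ ≤ |Real.sin (α + β)| * 1 + 1 * |Real.sin α| := by
          gcongr
          · exact Real.abs_cos_le_one _
          · exact Real.abs_cos_le_one _
      _ = _ := by ring
  by_cases h : |Real.sin β| / 2 ≤ |Real.sin α|
  · exact ⟨0, by norm_num, h⟩
  · refine ⟨1, le_refl _, ?_⟩
    rw [h1]
    push Not at h
    linarith

end P091
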